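import Vale.Agent.P227.T1.Main

open MeasureTheory Set
open scoped ENNReal NNReal Pointwise Matrix

namespace Vale.Agent.P227.T1

theorem exists_basis {m : ℕ} (v w : Fin m → EuclideanSpace ℝ (Fin (m + 2)))
    (hvw : ∀ i j, inner ℝ (v i) (w j) = if i = j then (1 : ℝ) else 0) :
    ∃ b : Module.Basis (Fin (m + 2)) ℝ (EuclideanSpace ℝ (Fin (m + 2))),
      (∀ i : Fin m, b (Fin.castAdd 2 i) = v i) ∧
      (∀ i : Fin m, ∀ x, b.repr x (Fin.castAdd 2 i) = inner ℝ x (w i)) := by
  classical
  let Φ : EuclideanSpace ℝ (Fin (m + 2)) →ₗ[ℝ] (Fin m → ℝ) :=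
    LinearMap.pi fun i => (innerₛₗ ℝ (w i))
  have hΦ : ∀ x i, Φ x i = inner ℝ (w i) x := fun x i => rfl
  have hsurj : Function.Surjective Φ := by
    intro y
    refine ⟨∑ i, y i • v i, ?_⟩
    funext j
    rw [hΦ, inner_sum]
    simp only [inner_smul_right]
    rw [Finset.sum_eq_single j]
    · rw [real_inner_comm, hvw]; simp
    · intro i _ hij
      rw [real_inner_comm, hvw, if_neg hij, mul_zero]
    · simp
  have hdim : Module.finrank ℝ (LinearMap.ker Φ) = 2 := by
    have h1 := LinearMap.finrank_range_add_finrank_ker Φ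
    rw [LinearMap.range_eq_top.2 hsurj, finrank_top] at h1
    simp at h1
    omega
  let c : Module.Basis (Fin 2) ℝ (LinearMap.ker Φ) := Module.finBasisOfFinrankEq ℝ _ hdim
  let f : Fin (m + 2) → EuclideanSpace ℝ (Fin (m + 2)) :=
    Fin.addCases v (fun j => (c j : EuclideanSpace ℝ (Fin (m + 2))))
  have hfl : ∀ i, f (Fin.castAdd 2 i) = v i := fun i => by simp [f]
  have hfr : ∀ j, f (Fin.natAdd m j) = c j := fun j => by simp [f]
  have hck : ∀ j k, inner ℝ (w k) (c j : EuclideanSpace ℝ (Fin (m + 2))) = 0 := by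
    intro j k
    have : Φ (c j : EuclideanSpace ℝ (Fin (m + 2))) = 0 := (c j).2
    rw [← hΦ, this]; rfl
  have hli : LinearIndependent ℝ f := by
    rw [Fintype.linearIndependent_iff]
    intro g hg
    rw [Fin.sum_univ_add] at hg
    simp only [hfl, hfr] at hg
    have ha : ∀ k : Fin m, g (Fin.castAdd 2 k) = 0 := by
      intro k
      have h2 := congrArg (fun z => inner ℝ (w k) z) hg
      simp only [inner_add_right, inner_sum, inner_smul_right, inner_zero_right, hck, mul_zero,
        Finset.sum_const_zero, add_zero] at h2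
      rw [Finset.sum_eq_single k] at h2
      · rw [real_inner_comm, hvw] at h2
        simpa using h2
      · intro i _ hik
        rw [real_inner_comm, hvw, if_neg hik, mul_zero]
      · simp
    simp only [ha, zero_smul, Finset.sum_const_zero, zero_add] at hg
    have hc' : ∑ j : Fin 2, g (Fin.natAdd m j) • c j = 0 := by
      apply Subtype.ext
      push_cast
      exact hg
    have hd := Fintype.linearIndependent_iff.1 c.linearIndependent _ hc'
    intro i
    refine Fin.addCases (fun i => ha i) (fun j => hd j) i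
  let b := basisOfLinearIndependentOfCardEqFinrank hli (by simp)
  have hb : ∀ i, b i = f i := fun i => by simp [b]
  refine ⟨b, fun i => by rw [hb, hfl], ?_⟩
  intro i x
  have hcoord : b.coord (Fin.castAdd 2 i) = (innerₛₗ ℝ (w i)) := by
    apply b.ext
    intro j
    rw [Module.Basis.coord_apply, Module.Basis.repr_self]
    refine Fin.addCases (fun j => ?_) (fun j => ?_) j
    · rw [hb, hfl]
      show _ = inner ℝ (w i) (v j)
      rw [real_inner_comm, hvw, Finsupp.single_apply]
      by_cases hij : j = i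
      · simp [hij]
      · rw [if_neg hij, if_neg]
        intro h
        exact hij (Fin.castAdd_injective m 2 h)
    · rw [hb, hfr]
      show _ = inner ℝ (w i) (c j : EuclideanSpace ℝ (Fin (m + 2)))
      rw [hck, Finsupp.single_apply, if_neg]
      intro h
      have := congrArg Fin.val h
      simp at this
      omega
  have := congrArg (fun φ => φ x) hcoord
  simp only [Module.Basis.coord_apply] at this
  rw [this]
  show inner ℝ (w i) x = inner ℝ x (w i)
  exact real_inner_comm _ _

/-- Main theorem, biorthogonal form. -/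
theorem main_biorth {m : ℕ} (v w : Fin m → EuclideanSpace ℝ (Fin (m + 2)))
    (hvw : ∀ i j, inner ℝ (v i) (w j) = if i = j then (1 : ℝ) else 0)
    (K L : Set (EuclideanSpace ℝ (Fin (m + 2)))) (hK : SymConvexBody K) (hL : SymConvexBody L)
    (rK : ∀ i, ∀ x ∈ K, x - (2 * inner ℝ x (w i)) • v i ∈ K)
    (rL : ∀ i, ∀ x ∈ L, x - (2 * inner ℝ x (w i)) • v i ∈ L)
    (t : ℝ) (ht : t ∈ Icc (0 : ℝ) 1) :
    volume K ^ (1 - t) * volume L ^ t ≤ volume (logComb t K L) := by
  obtain ⟨b, hb, hr⟩ := exists_basis v w hvw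
  refine main (by omega) b K L hK hL ?_ ?_ t ht
  · intro i hi x hx
    have := rK ⟨i, by omega⟩ x hx
    rw [← hb, ← hr] at this
    exact this
  · intro i hi x hx
    have := rL ⟨i, by omega⟩ x hx
    rw [← hb, ← hr] at this
    exact this

end Vale.Agent.P227.T1
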