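import Mathlib

open MeasureTheory Set
open scoped ENNReal NNReal Pointwise

namespace Vale.Agent.P227.T1

/-- One-dimensional Brunn-Minkowski, compact case, weighted. -/
theorem bm_compact {A B C : Set ℝ} (hA : IsCompact A) (hB : IsCompact B)
    (nA : A.Nonempty) (nB : B.Nonempty) {s t : ℝ} (hs : 0 ≤ s) (ht : 0 ≤ t)
    (h : ∀ a ∈ A, ∀ b ∈ B, s * a + t * b ∈ C) :
    ENNReal.ofReal s * volume A + ENNReal.ofReal t * volume B ≤ volume C := by
  obtain ⟨a, haA, ha⟩ := hA.exists_isGreatest nA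
  obtain ⟨b, hbB, hb⟩ := hB.exists_isLeast nB
  have h1 : (fun x => x + t * b) '' (s • A) ⊆ C := by
    rintro _ ⟨_, ⟨x, hx, rfl⟩, rfl⟩
    exact h x hx b hbB
  have h2 : (fun y => s * a + y) '' (t • B) ⊆ C := by
    rintro _ ⟨_, ⟨y, hy, rfl⟩, rfl⟩
    exact h a haA y hy
  have c2 : IsCompact ((fun y => s * a + y) '' (t • B)) := (hB.smul t).image (by fun_prop)
  have hdis : AEDisjoint volume ((fun x => x + t * b) '' (s • A))
      ((fun y => s * a + y) '' (t • B)) := by
    have : ((fun x => x + t * b) '' (s • A)) ∩ ((fun y => s * a + y) '' (t • B)) ⊆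
        {s * a + t * b} := by
      rintro _ ⟨⟨_, ⟨x, hx, rfl⟩, rfl⟩, ⟨_, ⟨y, hy, rfl⟩, hxy⟩⟩
      have hx' := mul_le_mul_of_nonneg_left (ha hx) hs
      have hy' := mul_le_mul_of_nonneg_left (hb hy) ht
      simp only [smul_eq_mul] at hxy ⊢
      simp only [mem_singleton_iff]
      linarith
    exact measure_mono_null this (by simp)
  have v1 : volume ((fun x => x + t * b) '' (s • A)) = ENNReal.ofReal s * volume A := by
    have : volume ((fun x => x + t * b) '' (s • A)) = volume (s • A) := by simp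
    rw [this, Measure.addHaar_smul]
    simp [abs_of_nonneg hs]
  have v2 : volume ((fun y => s * a + y) '' (t • B)) = ENNReal.ofReal t * volume B := by
    have : volume ((fun y => s * a + y) '' (t • B)) = volume (t • B) := by simp
    rw [this, Measure.addHaar_smul]
    simp [abs_of_nonneg ht]
  rw [← v1, ← v2, ← measure_union₀ c2.measurableSet.nullMeasurableSet hdis]
  exact measure_mono (union_subset h1 h2)

/-- One-dimensional Brunn-Minkowski, weighted, measurable sets. -/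
theorem bm_meas {A B C : Set ℝ} (hA : MeasurableSet A) (hB : MeasurableSet B)
    (nA : A.Nonempty) (nB : B.Nonempty) {s t : ℝ} (hs : 0 < s) (ht : 0 < t)
    (h : ∀ a ∈ A, ∀ b ∈ B, s * a + t * b ∈ C) :
    ENNReal.ofReal s * volume A + ENNReal.ofReal t * volume B ≤ volume C := by
  have key : ∀ K L : Set ℝ, IsCompact K → IsCompact L → K ⊆ A → L ⊆ B →
      ENNReal.ofReal s * volume K + ENNReal.ofReal t * volume L ≤ volume C := by
    intro K L hK hL hKA hLB
    obtain ⟨a0, ha0⟩ := nA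
    obtain ⟨b0, hb0⟩ := nB
    have hK' : IsCompact (K ∪ {a0}) := hK.union isCompact_singleton
    have hL' : IsCompact (L ∪ {b0}) := hL.union isCompact_singleton
    have := bm_compact hK' hL' ⟨a0, by simp⟩ ⟨b0, by simp⟩ (C := C) hs.le ht.le (by
      intro a ha b hb
      apply h
      · rcases ha with ha | ha
        · exact hKA ha
        · rw [mem_singleton_iff.mp ha]; exact ha0
      · rcases hb with hb | hb
        · exact hLB hb
        · rw [mem_singleton_iff.mp hb]; exact hb0)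
    refine le_trans (add_le_add ?_ ?_) this
    · gcongr
      exact subset_union_left
    · gcongr
      exact subset_union_left
  have hs0 : ENNReal.ofReal s ≠ 0 := by simpa using hs
  have ht0 : ENNReal.ofReal t ≠ 0 := by simpa using ht
  have eA : ENNReal.ofReal s * volume A =
      ⨆ K : {K : Set ℝ // IsCompact K ∧ K ⊆ A}, ENNReal.ofReal s * volume K.1 := by
    rw [hA.measure_eq_iSup_isCompact]
    rw [← ENNReal.mul_iSup, iSup_subtype]
    congr 1
    apply le_antisymm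
    · refine iSup_le fun K => iSup_le fun h1 => iSup_le fun h2 => ?_
      exact le_iSup_of_le K (le_iSup_of_le ⟨h2, h1⟩ le_rfl)
    · refine iSup_le fun K => iSup_le fun h1 => ?_
      exact le_iSup_of_le K (le_iSup_of_le h1.2 (le_iSup_of_le h1.1 le_rfl))
  have eB : ENNReal.ofReal t * volume B =
      ⨆ K : {K : Set ℝ // IsCompact K ∧ K ⊆ B}, ENNReal.ofReal t * volume K.1 := by
    rw [hB.measure_eq_iSup_isCompact]
    rw [← ENNReal.mul_iSup, iSup_subtype]
    congr 1
    apply le_antisymm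
    · refine iSup_le fun K => iSup_le fun h1 => iSup_le fun h2 => ?_
      exact le_iSup_of_le K (le_iSup_of_le ⟨h2, h1⟩ le_rfl)
    · refine iSup_le fun K => iSup_le fun h1 => ?_
      exact le_iSup_of_le K (le_iSup_of_le h1.2 (le_iSup_of_le h1.1 le_rfl))
  have : Nonempty {K : Set ℝ // IsCompact K ∧ K ⊆ A} := ⟨⟨∅, isCompact_empty, empty_subset _⟩⟩
  have : Nonempty {K : Set ℝ // IsCompact K ∧ K ⊆ B} := ⟨⟨∅, isCompact_empty, empty_subset _⟩⟩
  rw [eA, eB]
  exact ENNReal.iSup_add_iSup_le fun K L => key K.1 L.1 K.2.1 L.2.1 K.2.2 L.2.2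

theorem ennreal_amgm {l : ℝ} (hl0 : 0 < l) (hl1 : l < 1) (F G : ℝ≥0∞) :
    F ^ (1 - l) * G ^ l ≤ ENNReal.ofReal (1 - l) * F + ENNReal.ofReal l * G := by
  by_cases hF : F = ∞
  · subst hF
    have : ENNReal.ofReal (1 - l) * ∞ = ∞ := ENNReal.mul_top (by simpa using hl1)
    rw [this]; simp
  by_cases hG : G = ∞
  · subst hG
    have : ENNReal.ofReal l * ∞ = ∞ := ENNReal.mul_top (by simpa using hl0)
    rw [this]; simp
  lift F to ℝ≥0 using hF
  lift G to ℝ≥0 using hG
  have h := NNReal.geom_mean_le_arith_mean2_weighted (Real.toNNReal (1 - l)) (Real.toNNReal l) F G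
    (by rw [← Real.toNNReal_add (by linarith) hl0.le]; simp)
  rw [Real.coe_toNNReal _ (by linarith), Real.coe_toNNReal _ hl0.le] at h
  rw [ENNReal.ofReal, ENNReal.ofReal, ← ENNReal.coe_rpow_of_nonneg _ (by linarith),
    ← ENNReal.coe_rpow_of_nonneg _ hl0.le]
  exact_mod_cast h

/-- Normalised one-dimensional Prekopa-Leindler, weighted. -/
theorem pl_normalized {l : ℝ} (hl0 : 0 < l) (hl1 : l < 1)
    (f g h : ℝ → ℝ≥0∞) (hf : Measurable f) (hg : Measurable g)
    (hh : Measurable h) (hf1 : ⨆ x, f x = 1) (hg1 : ⨆ x, g x = 1)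
    (hfg : ∀ x y, f x ^ (1 - l) * g y ^ l ≤ h ((1 - l) * x + l * y)) :
    ENNReal.ofReal (1 - l) * (∫⁻ x, f x) + ENNReal.ofReal l * (∫⁻ x, g x) ≤ ∫⁻ x, h x := by
  have h1l : 0 < 1 - l := by linarith
  have hfle : ∀ x, f x ≤ 1 := fun x => hf1 ▸ le_iSup f x
  have hgle : ∀ x, g x ≤ 1 := fun x => hg1 ▸ le_iSup g x
  set k : ℝ → ℝ≥0∞ := fun x => min (h x) 1 with hk
  have hkm : Measurable k := hh.min measurable_const
  have hk1 : ∀ x, k x ≤ 1 := fun x => min_le_right _ _
  have hfgk : ∀ x y, f x ^ (1 - l) * g y ^ l ≤ k ((1 - l) * x + l * y) := by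
    intro x y
    have h1 : f x ^ (1 - l) * g y ^ l ≤ 1 := by
      calc f x ^ (1 - l) * g y ^ l ≤ 1 * 1 := mul_le_mul'
            (ENNReal.rpow_le_one (hfle x) h1l.le) (ENNReal.rpow_le_one (hgle y) hl0.le)
        _ = 1 := by simp
    exact le_min (hfg x y) h1
  have hcake : ∀ u : ℝ → ℝ≥0∞, Measurable u → (∀ x, u x ≤ 1) →
      ∫⁻ x, u x = ∫⁻ t in Ioi (0 : ℝ), volume {x | t < (u x).toReal} := by
    intro u hu hu1
    rw [← lintegral_eq_lintegral_meas_lt volume (Filter.Eventually.of_forall fun x => by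
      simp) hu.ennreal_toReal.aemeasurable]
    apply lintegral_congr
    intro x
    rw [ENNReal.ofReal_toReal (ne_top_of_le_ne_top ENNReal.one_ne_top (hu1 x))]
  have hkh : ∫⁻ x, k x ≤ ∫⁻ x, h x := lintegral_mono fun x => min_le_left _ _
  refine le_trans ?_ hkh
  rw [hcake f hf hfle, hcake g hg hgle, hcake k hkm hk1]
  have hmeas : ∀ u : ℝ → ℝ≥0∞, Measurable (fun t : ℝ => volume {x | t < (u x).toReal}) := by
    intro u
    apply Antitone.measurable
    intro s t hst
    exact measure_mono fun x hx => lt_of_le_of_lt hst hx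
  rw [← lintegral_const_mul _ (hmeas f), ← lintegral_const_mul _ (hmeas g),
    ← lintegral_add_left ((hmeas f).const_mul _)]
  refine setLIntegral_mono' measurableSet_Ioi ?_
  intro t ht
  have ht0 : 0 < t := ht
  rcases lt_or_ge t 1 with ht1 | ht1
  · apply bm_meas (s := 1 - l) (t := l)
    · exact measurableSet_lt measurable_const hf.ennreal_toReal
    · exact measurableSet_lt measurable_const hg.ennreal_toReal
    · have : ENNReal.ofReal t < ⨆ x, f x := by
        rw [hf1]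
        rw [← ENNReal.ofReal_one]
        exact (ENNReal.ofReal_lt_ofReal_iff one_pos).2 ht1
      obtain ⟨x, hx⟩ := lt_iSup_iff.1 this
      refine ⟨x, ?_⟩
      exact (ENNReal.ofReal_lt_iff_lt_toReal ht0.le
        (ne_top_of_le_ne_top ENNReal.one_ne_top (hfle x))).1 hx
    · have : ENNReal.ofReal t < ⨆ x, g x := by
        rw [hg1]
        rw [← ENNReal.ofReal_one]
        exact (ENNReal.ofReal_lt_ofReal_iff one_pos).2 ht1
      obtain ⟨x, hx⟩ := lt_iSup_iff.1 this
      refine ⟨x, ?_⟩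
      exact (ENNReal.ofReal_lt_iff_lt_toReal ht0.le
        (ne_top_of_le_ne_top ENNReal.one_ne_top (hgle x))).1 hx
    · exact h1l
    · exact hl0
    · intro a ha b hb
      simp only [mem_ofPred_eq] at ha hb ⊢
      have h3 := ENNReal.toReal_mono
        (ne_top_of_le_ne_top ENNReal.one_ne_top (hk1 _)) (hfgk a b)
      rw [ENNReal.toReal_mul, ← ENNReal.toReal_rpow, ← ENNReal.toReal_rpow] at h3
      refine lt_of_lt_of_le ?_ h3
      calc t = t ^ (1 - l) * t ^ l := by
            rw [← Real.rpow_add ht0]; simp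
        _ < (f a).toReal ^ (1 - l) * (g b).toReal ^ l :=
            mul_lt_mul'' (Real.rpow_lt_rpow ht0.le ha h1l) (Real.rpow_lt_rpow ht0.le hb hl0)
              (by positivity) (by positivity)
  · have e1 : {x | t < (f x).toReal} = ∅ := by
      ext x
      simp only [mem_ofPred_eq, mem_empty_iff_false, iff_false, not_lt]
      refine le_trans ?_ ht1
      have := ENNReal.toReal_mono ENNReal.one_ne_top (hfle x)
      simpa using this
    have e2 : {x | t < (g x).toReal} = ∅ := by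
      ext x
      simp only [mem_ofPred_eq, mem_empty_iff_false, iff_false, not_lt]
      refine le_trans ?_ ht1
      have := ENNReal.toReal_mono ENNReal.one_ne_top (hgle x)
      simpa using this
    rw [e1, e2]
    simp

theorem pl_bdd {l : ℝ} (hl0 : 0 < l) (hl1 : l < 1)
    (f g h : ℝ → ℝ≥0∞) (hf : Measurable f) (hg : Measurable g)
    (hh : Measurable h) (hf1 : ⨆ x, f x ≠ ∞) (hg1 : ⨆ x, g x ≠ ∞)
    (hfg : ∀ x y, f x ^ (1 - l) * g y ^ l ≤ h ((1 - l) * x + l * y)) :
    (∫⁻ x, f x) ^ (1 - l) * (∫⁻ x, g x) ^ l ≤ ∫⁻ x, h x := by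
  have h1l : 0 < 1 - l := by linarith
  by_cases hf0 : ⨆ x, f x = 0
  · have : f = fun _ => 0 := by
      funext x
      have := le_iSup f x
      rw [hf0] at this
      simpa using this
    rw [this]
    simp [h1l]
  by_cases hg0 : ⨆ x, g x = 0
  · have : g = fun _ => 0 := by
      funext x
      have := le_iSup g x
      rw [hg0] at this
      simpa using this
    rw [this]
    simp [hl0]
  set a := ⨆ x, f x with ha
  set b := ⨆ x, g x with hb
  set c := a ^ (1 - l) * b ^ l with hc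
  have ha' : a ^ (1 - l) ≠ 0 := by
    simp [ENNReal.rpow_eq_zero_iff, hf0, hf1]
  have hb' : b ^ l ≠ 0 := by
    simp [ENNReal.rpow_eq_zero_iff, hg0, hg1]
  have ha'' : a ^ (1 - l) ≠ ∞ := ENNReal.rpow_ne_top_of_nonneg h1l.le hf1
  have hb'' : b ^ l ≠ ∞ := ENNReal.rpow_ne_top_of_nonneg hl0.le hg1
  have hc0 : c ≠ 0 := mul_ne_zero ha' hb'
  have hc1 : c ≠ ∞ := ENNReal.mul_ne_top ha'' hb''
  have key := pl_normalized hl0 hl1 (fun x => a⁻¹ * f x) (fun x => b⁻¹ * g x)
    (fun x => c⁻¹ * h x) (hf.const_mul _) (hg.const_mul _) (hh.const_mul _)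
    (by rw [← ENNReal.mul_iSup, ← ha]; exact ENNReal.inv_mul_cancel hf0 hf1)
    (by rw [← ENNReal.mul_iSup, ← hb]; exact ENNReal.inv_mul_cancel hg0 hg1)
    (by
      intro x y
      rw [ENNReal.mul_rpow_of_nonneg _ _ h1l.le, ENNReal.mul_rpow_of_nonneg _ _ hl0.le,
        ENNReal.inv_rpow, ENNReal.inv_rpow]
      have h1 : c⁻¹ = (a ^ (1 - l))⁻¹ * (b ^ l)⁻¹ := by
        rw [hc, ENNReal.mul_inv (Or.inl ha') (Or.inl ha'')]
      calc (a ^ (1 - l))⁻¹ * f x ^ (1 - l) * ((b ^ l)⁻¹ * g y ^ l)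
          = ((a ^ (1 - l))⁻¹ * (b ^ l)⁻¹) * (f x ^ (1 - l) * g y ^ l) := by ring
        _ ≤ ((a ^ (1 - l))⁻¹ * (b ^ l)⁻¹) * h ((1 - l) * x + l * y) := by
          gcongr
          exact hfg x y
        _ = c⁻¹ * h ((1 - l) * x + l * y) := by rw [h1])
  rw [lintegral_const_mul _ hf, lintegral_const_mul _ hg, lintegral_const_mul _ hh] at key
  set F := ∫⁻ x, f x
  set G := ∫⁻ x, g x
  set H := ∫⁻ x, h x
  have h5 := le_trans (ennreal_amgm hl0 hl1 (a⁻¹ * F) (b⁻¹ * G)) key
  rw [ENNReal.mul_rpow_of_nonneg _ _ h1l.le, ENNReal.mul_rpow_of_nonneg _ _ hl0.le,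
        ENNReal.inv_rpow, ENNReal.inv_rpow] at h5
  have h6 : c * ((a ^ (1 - l))⁻¹ * F ^ (1 - l) * ((b ^ l)⁻¹ * G ^ l)) ≤ c * (c⁻¹ * H) := by
    gcongr
  have h7 : c * ((a ^ (1 - l))⁻¹ * F ^ (1 - l) * ((b ^ l)⁻¹ * G ^ l)) = F ^ (1 - l) * G ^ l := by
    calc c * ((a ^ (1 - l))⁻¹ * F ^ (1 - l) * ((b ^ l)⁻¹ * G ^ l))
        = (a ^ (1 - l) * (a ^ (1 - l))⁻¹) * (b ^ l * (b ^ l)⁻¹) * (F ^ (1 - l) * G ^ l) := by
          rw [hc]; ring
      _ = F ^ (1 - l) * G ^ l := by
        rw [ENNReal.mul_inv_cancel ha' ha'', ENNReal.mul_inv_cancel hb' hb'']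
        simp
  have h8 : c * (c⁻¹ * H) = H := by
    rw [← mul_assoc, ENNReal.mul_inv_cancel hc0 hc1, one_mul]
  rwa [h7, h8] at h6

/-- One-dimensional Prekopa-Leindler inequality, weighted. -/
theorem pl_one {l : ℝ} (hl0 : 0 < l) (hl1 : l < 1)
    (f g h : ℝ → ℝ≥0∞) (hf : Measurable f) (hg : Measurable g)
    (hh : Measurable h)
    (hfg : ∀ x y, f x ^ (1 - l) * g y ^ l ≤ h ((1 - l) * x + l * y)) :
    (∫⁻ x, f x) ^ (1 - l) * (∫⁻ x, g x) ^ l ≤ ∫⁻ x, h x := by
  have h1l : 0 < 1 - l := by linarith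
  have hcut : ∀ u : ℝ → ℝ≥0∞, Measurable u →
      ∫⁻ x, u x = ⨆ n : ℕ, ∫⁻ x, min (u x) n := by
    intro u hu
    rw [← lintegral_iSup (fun n => hu.min measurable_const)
      (fun m n hmn x => min_le_min_left _ (by exact_mod_cast hmn))]
    apply lintegral_congr
    intro x
    apply le_antisymm
    · by_cases hx : u x = ∞
      · rw [hx]
        simp only [top_le_iff, le_top, inf_of_le_right]
        exact ENNReal.iSup_natCast
      · obtain ⟨n, hn⟩ := ENNReal.exists_nat_gt hx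
        refine le_trans ?_ (le_iSup _ n)
        rw [min_eq_left hn.le]
    · exact iSup_le fun n => min_le_left _ _
  have hsup : ∀ (u : ℝ → ℝ≥0∞) (n : ℕ), ⨆ x, min (u x) (n : ℝ≥0∞) ≠ ∞ := by
    intro u n
    refine ne_top_of_le_ne_top (ENNReal.natCast_ne_top n) (iSup_le fun x => min_le_right _ _)
  have hpow : ∀ (p : ℝ) (hp : 0 < p) (v : ℕ → ℝ≥0∞), (⨆ n, v n) ^ p = ⨆ n, v n ^ p := by
    intro p hp v
    exact (ENNReal.orderIsoRpow p hp).map_iSup v
  rw [hcut f hf, hcut g hg, hpow _ h1l, hpow _ hl0, ENNReal.iSup_mul]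
  refine iSup_le fun n => ?_
  rw [ENNReal.mul_iSup]
  refine iSup_le fun m => ?_
  refine pl_bdd hl0 hl1 _ _ h (hf.min measurable_const) (hg.min measurable_const) hh
    (hsup f n) (hsup g m) ?_
  intro x y
  exact le_trans (mul_le_mul' (ENNReal.rpow_le_rpow (min_le_left _ _) h1l.le)
    (ENNReal.rpow_le_rpow (min_le_left _ _) hl0.le)) (hfg x y)

/-- One-dimensional multiplicative Prekopa-Leindler inequality on the half line. -/
theorem pl_mul {l : ℝ} (hl0 : 0 < l) (hl1 : l < 1)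
    (f g h : ℝ → ℝ≥0∞) (hf : Measurable f) (hg : Measurable g)
    (hh : Measurable h)
    (hfg : ∀ x y, 0 < x → 0 < y → f x ^ (1 - l) * g y ^ l ≤ h (x ^ (1 - l) * y ^ l)) :
    (∫⁻ x in Ioi 0, f x) ^ (1 - l) * (∫⁻ x in Ioi 0, g x) ^ l ≤ ∫⁻ x in Ioi 0, h x := by
  have h1l : 0 < 1 - l := by linarith
  have hcv : ∀ u : ℝ → ℝ≥0∞, ∫⁻ x in Ioi 0, u x =
      ∫⁻ s, ENNReal.ofReal (Real.exp s) * u (Real.exp s) := by
    intro u
    have := lintegral_image_eq_lintegral_abs_deriv_mul (s := univ) (f := Real.exp)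
      (f' := Real.exp) MeasurableSet.univ
      (fun x _ => (Real.hasDerivAt_exp x).hasDerivWithinAt) (Real.exp_injective.injOn) u
    rw [image_univ, Real.range_exp, Measure.restrict_univ] at this
    rw [this]
    apply lintegral_congr
    intro x
    rw [abs_of_pos (Real.exp_pos x)]
  rw [hcv f, hcv g, hcv h]
  have hme : Measurable fun s : ℝ => ENNReal.ofReal (Real.exp s) :=
    ENNReal.measurable_ofReal.comp Real.measurable_exp
  apply pl_one hl0 hl1
  · exact hme.mul (hf.comp Real.measurable_exp)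
  · exact hme.mul (hg.comp Real.measurable_exp)
  · exact hme.mul (hh.comp Real.measurable_exp)
  intro x y
  have e1 : Real.exp ((1 - l) * x + l * y) = Real.exp x ^ (1 - l) * Real.exp y ^ l := by
    rw [← Real.exp_mul, ← Real.exp_mul, ← Real.exp_add]
    ring_nf
  rw [ENNReal.mul_rpow_of_nonneg _ _ h1l.le, ENNReal.mul_rpow_of_nonneg _ _ hl0.le]
  calc ENNReal.ofReal (Real.exp x) ^ (1 - l) * f (Real.exp x) ^ (1 - l) *
      (ENNReal.ofReal (Real.exp y) ^ l * g (Real.exp y) ^ l)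
      = (ENNReal.ofReal (Real.exp x) ^ (1 - l) * ENNReal.ofReal (Real.exp y) ^ l) *
        (f (Real.exp x) ^ (1 - l) * g (Real.exp y) ^ l) := by ring
    _ ≤ ENNReal.ofReal (Real.exp ((1 - l) * x + l * y)) *
        h (Real.exp ((1 - l) * x + l * y)) := by
      rw [e1]
      apply mul_le_mul'
      · rw [ENNReal.ofReal_rpow_of_pos (Real.exp_pos x), ENNReal.ofReal_rpow_of_pos (Real.exp_pos y),
          ENNReal.ofReal_mul (by positivity)]
      · exact hfg _ _ (Real.exp_pos x) (Real.exp_pos y)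

end Vale.Agent.P227.T1
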