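import Vale.Agent.P227.T1.PlanarMain

open MeasureTheory Set
open scoped ENNReal NNReal Pointwise Matrix

namespace Vale.Agent.P227.T1

/-- Section of a set at height `a` of the zeroth coordinate. -/
def sec {m : ℕ} (S : Set (Fin (m + 1) → ℝ)) (a : ℝ) : Set (Fin m → ℝ) :=
  {x | (Fin.cons a x : Fin (m + 1) → ℝ) ∈ S}

theorem volume_sec {m : ℕ} {S : Set (Fin (m + 1) → ℝ)} (hS : MeasurableSet S) :
    volume S = ∫⁻ a : ℝ, volume (sec S a) := by
  have h1 := (volume_preserving_piFinSuccAbove (fun _ : Fin (m + 1) => ℝ) 0).symm.measure_preimage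
    hS.nullMeasurableSet
  rw [← h1, Measure.volume_eq_prod, Measure.prod_apply
    ((MeasurableEquiv.piFinSuccAbove (fun _ : Fin (m + 1) => ℝ) 0).symm.measurable hS)]
  apply lintegral_congr
  intro a
  congr 1
  ext x
  simp [sec, MeasurableEquiv.piFinSuccAbove]
  rfl

theorem measurable_sec {m : ℕ} {S : Set (Fin (m + 1) → ℝ)} (hS : MeasurableSet S) :
    Measurable fun a : ℝ => volume (sec S a) := by
  have := measurable_measure_prodMk_left (ν := (volume : Measure (Fin m → ℝ)))
    ((MeasurableEquiv.piFinSuccAbove (fun _ : Fin (m + 1) => ℝ) 0).symm.measurable hS)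
  convert this using 2 with a
  congr 1
  ext x
  simp [sec, MeasurableEquiv.piFinSuccAbove]
  rfl

theorem lintegral_even {φ : ℝ → ℝ≥0∞} (hφ : Measurable φ) (he : ∀ a, φ (-a) = φ a) :
    ∫⁻ a, φ a = 2 * ∫⁻ a in Ioi 0, φ a := by
  have h1 : ∫⁻ a, φ a = (∫⁻ a in Iic 0, φ a) + ∫⁻ a in Ioi 0, φ a := by
    rw [← lintegral_add_compl φ (measurableSet_Iic (a := (0 : ℝ))), compl_Iic]
  have h2 : ∫⁻ a in Iic 0, φ a = ∫⁻ a in Ioi 0, φ a := by
    rw [← restrict_Iio_eq_restrict_Iic]
    have := (Measure.measurePreserving_neg (volume : Measure ℝ)).setLIntegral_comp_preimage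
      (measurableSet_Iio (a := (0 : ℝ))) hφ
    rw [← this]
    simp [he]
  rw [h1, h2, two_mul]

theorem cons_dot {m : ℕ} (a : ℝ) (x : Fin m → ℝ) (u : Fin (m + 1) → ℝ) :
    (Fin.cons a x : Fin (m + 1) → ℝ) ⬝ᵥ u = a * u 0 + x ⬝ᵥ Fin.tail u := by
  simp [dotProduct, Fin.sum_univ_succ, Fin.tail]

theorem sec_isCompact {m : ℕ} {S : Set (Fin (m + 1) → ℝ)} (hS : IsCompact S) (a : ℝ) :
    IsCompact (sec S a) := by
  have hc : Continuous fun x : Fin m → ℝ => (Fin.cons a x : Fin (m + 1) → ℝ) := by
    refine continuous_pi fun i => ?_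
    refine Fin.cases ?_ (fun j => ?_) i
    · simpa using continuous_const
    · simpa using continuous_apply j
  refine Metric.isCompact_of_isClosed_isBounded (hS.isClosed.preimage hc) ?_
  obtain ⟨R, hR⟩ := hS.isBounded.exists_norm_le
  rw [isBounded_iff_forall_norm_le]
  refine ⟨R, fun x hx => ?_⟩
  have h0 : 0 ≤ R := le_trans (norm_nonneg _) (hR _ hx)
  rw [pi_norm_le_iff_of_nonneg h0]
  intro i
  have := norm_le_pi_norm (Fin.cons a x : Fin (m + 1) → ℝ) i.succ
  simp only [Fin.cons_succ] at this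
  exact le_trans this (hR _ hx)

theorem sec_convex {m : ℕ} {S : Set (Fin (m + 1) → ℝ)} (hS : Convex ℝ S) (a : ℝ) :
    Convex ℝ (sec S a) := by
  intro x hx y hy s t hs ht hst
  have := hS hx hy hs ht hst
  show (Fin.cons a (s • x + t • y) : Fin (m + 1) → ℝ) ∈ S
  convert this using 1
  funext i
  refine Fin.cases ?_ (fun j => ?_) i
  · simp [← add_mul, hst]
  · simp

/-- Logarithmic Brunn-Minkowski inequality in coordinates for bodies with all but two coordinate
reflection symmetries. -/
theorem logBM_refl {l : ℝ} (hl0 : 0 < l) (hl1 : l < 1) (m : ℕ) :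
    ∀ K L : Set (Fin (m + 2) → ℝ), Convex ℝ K → Convex ℝ L → IsCompact K → IsCompact L →
      (∀ x ∈ K, -x ∈ K) → (∀ x ∈ L, -x ∈ L) →
      (∀ i : Fin (m + 2), i.val < m → ∀ x ∈ K, Function.update x i (-x i) ∈ K) →
      (∀ i : Fin (m + 2), i.val < m → ∀ x ∈ L, Function.update x i (-x i) ∈ L) →
      volume K ^ (1 - l) * volume L ^ l ≤
        volume (wf fun u => hs K u ^ (1 - l) * hs L u ^ l) := by
  have h1l : 0 < 1 - l := by linarith
  induction m with
  | zero =>
    intro K L cK cL hK hL sK sL _ _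
    by_cases vK : volume K = 0
    · rw [vK, ENNReal.zero_rpow_of_pos h1l, zero_mul]
      exact zero_le
    by_cases vL : volume L = 0
    · rw [vL, ENNReal.zero_rpow_of_pos hl0, mul_zero]
      exact zero_le
    have key := planar_pos cK cL hK hL sK sL vK vL hl0 hl1
    have fK : volume K ≠ ∞ := hK.measure_lt_top.ne
    have fL : volume L ≠ ∞ := hL.measure_lt_top.ne
    have fW : volume (wf fun u => hs K u ^ (1 - l) * hs L u ^ l) ≠ ∞ :=
      (wf_isCompact _).measure_lt_top.ne
    rw [ENNReal.toReal_rpow, ENNReal.toReal_rpow, ← ENNReal.toReal_mul] at key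
    exact (ENNReal.toReal_le_toReal (by finiteness) fW).1 key
  | succ m ih =>
    intro K L cK cL hK hL sK sL rK rL
    set f : (Fin (m + 1 + 2) → ℝ) → ℝ := fun u => hs K u ^ (1 - l) * hs L u ^ l with hf
    have flip : ∀ S : Set (Fin (m + 1 + 2) → ℝ),
        (∀ x ∈ S, Function.update x 0 (-x 0) ∈ S) → ∀ a, sec S (-a) = sec S a := by
      intro S hS
      have h1 : ∀ a, sec S a ⊆ sec S (-a) := by
        intro a x hx
        have := hS _ hx
        rwa [Fin.cons_zero, Fin.update_cons_zero] at this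
      intro a
      apply Subset.antisymm
      · have := h1 (-a)
        rwa [neg_neg] at this
      · exact h1 a
    have r0K : ∀ x ∈ K, Function.update x 0 (-x 0) ∈ K := rK 0 (by simp)
    have r0L : ∀ x ∈ L, Function.update x 0 (-x 0) ∈ L := rL 0 (by simp)
    have dotupd : ∀ x u : Fin (m + 1 + 2) → ℝ,
        Function.update x 0 (-x 0) ⬝ᵥ u = x ⬝ᵥ Function.update u 0 (-u 0) := by
      intro x u
      simp [dotProduct, Fin.sum_univ_succ]
    have hsupd : ∀ S : Set (Fin (m + 1 + 2) → ℝ), (∀ x ∈ S, Function.update x 0 (-x 0) ∈ S) →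
        ∀ u, hs S (Function.update u 0 (-u 0)) = hs S u := by
      intro S hS u
      unfold hs
      congr 1
      ext c
      constructor
      · rintro ⟨x, hx, rfl⟩
        exact ⟨_, hS x hx, dotupd x u⟩
      · rintro ⟨x, hx, rfl⟩
        refine ⟨_, hS x hx, ?_⟩
        simp only
        rw [dotupd]
        congr 1
        simp
    have r0M : ∀ x ∈ wf f, Function.update x 0 (-x 0) ∈ wf f := by
      intro x hx u
      rw [dotupd]
      refine le_trans (hx _) (le_of_eq ?_)
      simp only [hf, hsupd K r0K, hsupd L r0L]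
    have hMm : MeasurableSet (wf f) := (wf_isClosed f).measurableSet
    have eK := volume_sec hK.measurableSet
    have eL := volume_sec hL.measurableSet
    have eM := volume_sec hMm
    rw [lintegral_even (measurable_sec hK.measurableSet) fun a => by rw [flip K r0K]] at eK
    rw [lintegral_even (measurable_sec hL.measurableSet) fun a => by rw [flip L r0L]] at eL
    rw [lintegral_even (measurable_sec hMm) fun a => by rw [flip _ r0M]] at eM
    rw [eK, eL, eM, ENNReal.mul_rpow_of_nonneg _ _ h1l.le, ENNReal.mul_rpow_of_nonneg _ _ hl0.le]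
    have h2 : (2 : ℝ≥0∞) ^ (1 - l) * 2 ^ l = 2 := by
      rw [← ENNReal.rpow_add _ _ (by norm_num) (by norm_num)]
      simp
    rw [mul_mul_mul_comm, h2]
    gcongr
    apply pl_mul hl0 hl1 _ _ _ (measurable_sec hK.measurableSet) (measurable_sec hL.measurableSet)
      (measurable_sec hMm)
    intro a b ha hb
    by_cases vK : volume (sec K a) = 0
    · rw [vK, ENNReal.zero_rpow_of_pos h1l, zero_mul]
      exact zero_le
    by_cases vL : volume (sec L b) = 0
    · rw [vL, ENNReal.zero_rpow_of_pos hl0, mul_zero]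
      exact zero_le
    have nKa : (sec K a).Nonempty := by
      rw [nonempty_iff_ne_empty]; intro h; rw [h] at vK; simp at vK
    have nLb : (sec L b).Nonempty := by
      rw [nonempty_iff_ne_empty]; intro h; rw [h] at vL; simp at vL
    have ssec : ∀ (S : Set (Fin (m + 1 + 2) → ℝ)), (∀ x ∈ S, -x ∈ S) →
        (∀ x ∈ S, Function.update x 0 (-x 0) ∈ S) → ∀ (c : ℝ), ∀ x ∈ sec S c, -x ∈ sec S c := by
      intro S sS rS c x hx
      have h3 := rS _ (sS _ hx)
      show (Fin.cons c (-x) : Fin (m + 1 + 2) → ℝ) ∈ S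
      convert h3 using 1
      funext i
      refine Fin.cases ?_ (fun j => ?_) i
      · simp
      · simp
    have rsec : ∀ (S : Set (Fin (m + 1 + 2) → ℝ)),
        (∀ i : Fin (m + 1 + 2), i.val < m + 1 → ∀ x ∈ S, Function.update x i (-x i) ∈ S) →
        ∀ (c : ℝ) (i : Fin (m + 2)), i.val < m → ∀ x ∈ sec S c,
          Function.update x i (-x i) ∈ sec S c := by
      intro S rS c i hi x hx
      have h3 := rS i.succ (by simp; omega) _ hx
      show (Fin.cons c (Function.update x i (-x i)) : Fin (m + 1 + 2) → ℝ) ∈ S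
      rw [Fin.cons_update]
      simpa using h3
    have key := ih (sec K a) (sec L b) (sec_convex cK a) (sec_convex cL b) (sec_isCompact hK a)
      (sec_isCompact hL b) (ssec K sK r0K a) (ssec L sL r0L b) (rsec K rK a) (rsec L rL b)
    refine le_trans key (measure_mono ?_)
    have hlow : ∀ (S : Set (Fin (m + 1 + 2) → ℝ)) (c : ℝ), 0 < c → IsCompact S →
        (∀ x ∈ S, Function.update x 0 (-x 0) ∈ S) → (sec S c).Nonempty →
        ∀ u : Fin (m + 1 + 2) → ℝ, c * |u 0| + hs (sec S c) (Fin.tail u) ≤ hs S u := by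
      intro S c hc hS rS nS u
      obtain ⟨y, hy, hyu⟩ := exists_hs (sec_isCompact hS c) nS (Fin.tail u)
      rw [← hyu]
      rcases le_total 0 (u 0) with h | h
      · rw [abs_of_nonneg h, ← cons_dot]
        exact le_hs hS hy u
      · rw [abs_of_nonpos h]
        have h4 := rS _ hy
        rw [Fin.cons_zero, Fin.update_cons_zero] at h4
        have := le_hs hS h4 u
        rw [cons_dot] at this
        linarith
    intro x hx u
    rw [cons_dot]
    have i1 := hx (Fin.tail u)
    have i2 := hlow K a ha hK r0K nKa u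
    have i3 := hlow L b hb hL r0L nLb u
    have j1 : 0 ≤ hs (sec K a) (Fin.tail u) :=
      hs_nonneg (sec_isCompact hK a) nKa (ssec K sK r0K a) _
    have j2 : 0 ≤ hs (sec L b) (Fin.tail u) :=
      hs_nonneg (sec_isCompact hL b) nLb (ssec L sL r0L b) _
    have e1 : (a * |u 0|) ^ (1 - l) * (b * |u 0|) ^ l = a ^ (1 - l) * b ^ l * |u 0| := by
      rw [Real.mul_rpow ha.le (abs_nonneg _), Real.mul_rpow hb.le (abs_nonneg _)]
      have : |u 0| ^ (1 - l) * |u 0| ^ l = |u 0| := by
        rw [← Real.rpow_add' (abs_nonneg _) (by simp)]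
        simp
      calc a ^ (1 - l) * |u 0| ^ (1 - l) * (b ^ l * |u 0| ^ l)
          = a ^ (1 - l) * b ^ l * (|u 0| ^ (1 - l) * |u 0| ^ l) := by ring
        _ = _ := by rw [this]
    have hh := holder2 hl0 hl1 (p := a * |u 0|) (q := b * |u 0|)
      (r := hs (sec K a) (Fin.tail u)) (s := hs (sec L b) (Fin.tail u))
      (by positivity) (by positivity) j1 j2
    rw [e1] at hh
    have e2 : a ^ (1 - l) * b ^ l * u 0 ≤ a ^ (1 - l) * b ^ l * |u 0| := by
      have := le_abs_self (u 0)
      have : 0 ≤ a ^ (1 - l) * b ^ l := by positivity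
      gcongr
    have e3 : (a * |u 0| + hs (sec K a) (Fin.tail u)) ^ (1 - l) *
        (b * |u 0| + hs (sec L b) (Fin.tail u)) ^ l ≤ f u := by
      simp only [hf]
      have k1 : 0 ≤ hs K u := le_trans (by positivity) i2
      have k2 : 0 ≤ hs L u := le_trans (by positivity) i3
      exact mul_le_mul (Real.rpow_le_rpow (by positivity) i2 h1l.le)
        (Real.rpow_le_rpow (by positivity) i3 hl0.le) (by positivity) (by positivity)
    linarith

end Vale.Agent.P227.T1
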