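import Vale.Agent.P227.Defs
import Vale.Agent.P227.T1.Refl

open MeasureTheory Set
open scoped ENNReal NNReal Pointwise Matrix

namespace Vale.Agent.P227.T1

/-- Coordinates change volume by a constant factor. -/
theorem exists_scale {n : ℕ} (T : EuclideanSpace ℝ (Fin n) ≃L[ℝ] (Fin n → ℝ)) :
    ∃ c : ℝ≥0∞, c ≠ 0 ∧ c ≠ ∞ ∧ ∀ S : Set (EuclideanSpace ℝ (Fin n)),
      volume (T '' S) = c * volume S := by
  have h1 : (Measure.map T.symm (volume : Measure (Fin n → ℝ))).IsAddHaarMeasure :=
    T.symm.isAddHaarMeasure_map _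
  have h2 := Measure.isAddLeftInvariant_eq_smul (Measure.map T.symm (volume : Measure (Fin n → ℝ)))
    (volume : Measure (EuclideanSpace ℝ (Fin n)))
  set c := Measure.addHaarScalarFactor (Measure.map T.symm (volume : Measure (Fin n → ℝ)))
    (volume : Measure (EuclideanSpace ℝ (Fin n))) with hc
  refine ⟨c, ?_, ENNReal.coe_ne_top, ?_⟩
  · have := Measure.addHaarScalarFactor_pos_of_isAddHaarMeasure
      (Measure.map T.symm (volume : Measure (Fin n → ℝ)))
      (volume : Measure (EuclideanSpace ℝ (Fin n)))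
    exact_mod_cast this.ne'
  · intro S
    have h3 : volume (T '' S) = (Measure.map T.symm (volume : Measure (Fin n → ℝ))) S := by
      have := T.symm.toHomeomorph.toMeasurableEquiv.map_apply (μ := volume) S
      rw [show (Measure.map T.symm (volume : Measure (Fin n → ℝ))) S =
        volume (T.symm ⁻¹' S) from this]
      congr 1
      exact T.image_eq_preimage_symm S
    rw [h3, h2]
    rfl

/-- Main theorem: log-Brunn-Minkowski for bodies with `n - 2` common commuting reflections. -/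
theorem main {n : ℕ} (hn : 2 ≤ n) (b : Module.Basis (Fin n) ℝ (EuclideanSpace ℝ (Fin n)))
    (K L : Set (EuclideanSpace ℝ (Fin n))) (hK : SymConvexBody K) (hL : SymConvexBody L)
    (rK : ∀ i : Fin n, (i : ℕ) + 2 < n → ∀ x ∈ K, x - (2 * b.repr x i) • b i ∈ K)
    (rL : ∀ i : Fin n, (i : ℕ) + 2 < n → ∀ x ∈ L, x - (2 * b.repr x i) • b i ∈ L)
    (t : ℝ) (ht : t ∈ Icc (0 : ℝ) 1) :
    volume K ^ (1 - t) * volume L ^ t ≤ volume (logComb t K L) := by
  have bdd : ∀ (S : Set (EuclideanSpace ℝ (Fin n))), IsCompact S → ∀ u,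
      BddAbove ((fun x => inner ℝ x u) '' S) := by
    intro S hS u
    exact (hS.image (by fun_prop)).bddAbove
  rcases ht.1.eq_or_lt with h0 | h0
  · subst h0
    rw [sub_zero, ENNReal.rpow_one, ENNReal.rpow_zero, mul_one]
    apply measure_mono
    intro x hx u _
    simp only [sub_zero, Real.rpow_one, Real.rpow_zero, mul_one]
    exact le_csSup (bdd K hK.isCompact u) ⟨x, hx, rfl⟩
  rcases ht.2.eq_or_lt with h1 | h1
  · subst h1
    rw [sub_self, ENNReal.rpow_one, ENNReal.rpow_zero, one_mul]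
    apply measure_mono
    intro x hx u _
    simp only [sub_self, Real.rpow_one, Real.rpow_zero, one_mul]
    exact le_csSup (bdd L hL.isCompact u) ⟨x, hx, rfl⟩
  obtain ⟨m, rfl⟩ : ∃ m, n = m + 2 := ⟨n - 2, by omega⟩
  set T : EuclideanSpace ℝ (Fin (m + 2)) ≃L[ℝ] (Fin (m + 2) → ℝ) :=
    b.equivFun.toContinuousLinearEquiv with hT
  have hTr : ∀ x, T x = b.repr x := fun x => rfl
  obtain ⟨c, hc0, hc1, hc⟩ := exists_scale T
  -- dual coordinates
  set v : EuclideanSpace ℝ (Fin (m + 2)) → (Fin (m + 2) → ℝ) := fun u i => inner ℝ (b i) u with hv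
  have hdot : ∀ x u, (T x) ⬝ᵥ (v u) = inner ℝ x u := by
    intro x u
    have : x = ∑ i, b.repr x i • b i := (b.sum_repr x).symm
    conv_rhs => rw [this, sum_inner]
    simp only [inner_smul_left, dotProduct, hTr, hv]
    rfl
  have hsup : ∀ (S : Set (EuclideanSpace ℝ (Fin (m + 2)))) u,
      hs (T '' S) (v u) = supportFn S u := by
    intro S u
    unfold hs supportFn
    rw [image_image]
    congr 1
    apply image_congr
    intro x _
    exact hdot x u
  have hconv : ∀ S, Convex ℝ S → Convex ℝ (T '' S) := fun S hS =>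
    hS.is_linear_image (T : EuclideanSpace ℝ (Fin (m + 2)) →ₗ[ℝ] (Fin (m + 2) → ℝ)).isLinear
  have hcomp : ∀ S, IsCompact S → IsCompact (T '' S) := fun S hS => hS.image T.continuous
  have hsym : ∀ S : Set (EuclideanSpace ℝ (Fin (m + 2))), (∀ x ∈ S, -x ∈ S) →
      ∀ y ∈ T '' S, -y ∈ T '' S := by
    rintro S hS _ ⟨x, hx, rfl⟩
    exact ⟨-x, hS x hx, by simp⟩
  have hrefl : ∀ S : Set (EuclideanSpace ℝ (Fin (m + 2))),
      (∀ i : Fin (m + 2), (i : ℕ) + 2 < m + 2 → ∀ x ∈ S, x - (2 * b.repr x i) • b i ∈ S) →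
      ∀ i : Fin (m + 2), i.val < m → ∀ y ∈ T '' S, Function.update y i (-y i) ∈ T '' S := by
    rintro S hS i hi _ ⟨x, hx, rfl⟩
    refine ⟨_, hS i (by omega) x hx, ?_⟩
    rw [map_sub, map_smul]
    funext j
    have hb : T (b i) = Pi.single i 1 := by
      funext k
      rw [hTr, b.repr_self, Finsupp.single_eq_pi_single]
    rw [hb]
    by_cases hj : j = i
    · subst hj
      simp [hTr]
      ring
    · simp [Function.update_of_ne hj, Pi.single_eq_of_ne hj]
  have key := logBM_refl h0 h1 m (T '' K) (T '' L) (hconv K hK.convex) (hconv L hL.convex)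
    (hcomp K hK.isCompact) (hcomp L hL.isCompact) (hsym K hK.symm) (hsym L hL.symm)
    (hrefl K rK) (hrefl L rL)
  have hincl : (wf fun u => hs (T '' K) u ^ (1 - t) * hs (T '' L) u ^ t) ⊆
      T '' (logComb t K L) := by
    intro y hy
    refine ⟨T.symm y, ?_, by simp⟩
    intro u _
    have := hy (v u)
    rw [← hdot, T.apply_symm_apply]
    simpa only [hsup] using this
  have key2 := le_trans key (measure_mono hincl)
  rw [hc, hc, hc, ENNReal.mul_rpow_of_nonneg _ _ (by linarith), ENNReal.mul_rpow_of_nonneg _ _ h0.le,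
    mul_mul_mul_comm, ← ENNReal.rpow_add _ _ hc0 hc1] at key2
  simp only [sub_add_cancel, ENNReal.rpow_one] at key2
  exact (ENNReal.mul_le_mul_iff_right hc0 hc1).1 key2

end Vale.Agent.P227.T1
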