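import Vale.Agent.P227.T1.Support
import Vale.Agent.P227.T1.PL

open MeasureTheory Set
open scoped ENNReal NNReal Pointwise Matrix

namespace Vale.Agent.P227.T1

theorem smul_mem_of_symm {V : Type*} [AddCommGroup V] [Module ℝ V] {K : Set V}
    (cK : Convex ℝ K) (sK : ∀ x ∈ K, -x ∈ K) {x : V} (hx : x ∈ K) {t : ℝ} (ht : |t| ≤ 1) :
    t • x ∈ K := by
  rw [abs_le] at ht
  have := cK hx (sK x hx) (a := (1 + t) / 2) (b := (1 - t) / 2) (by linarith) (by linarith)
    (by ring)
  convert this using 1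
  rw [smul_neg, ← sub_eq_add_neg, ← sub_smul]
  congr 1
  ring

theorem volume_two {S : Set (Fin 2 → ℝ)} (hS : MeasurableSet S) :
    volume S = ∫⁻ a : ℝ, volume {s : ℝ | ![a, s] ∈ S} := by
  have h1 := (volume_preserving_finTwoArrow ℝ).symm.measure_preimage hS.nullMeasurableSet
  rw [← h1, Measure.volume_eq_prod, Measure.prod_apply
    ((MeasurableEquiv.finTwoArrow (α := ℝ)).symm.measurable hS)]
  rfl

/-- Plane convex bodies with a common width: volume is superlinear. -/
theorem linBM {A B C : Set (Fin 2 → ℝ)} (cA : Convex ℝ A) (cB : Convex ℝ B)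
    (hA : IsCompact A) (hB : IsCompact B) (sA : ∀ x ∈ A, -x ∈ A) (sB : ∀ x ∈ B, -x ∈ B)
    (nA : A.Nonempty) (nB : B.Nonempty) (mC : IsClosed C) {u : Fin 2 → ℝ} (hu : u ≠ 0)
    (huw : hs A u = hs B u) {α β : ℝ} (hα : 0 ≤ α) (hβ : 0 ≤ β) (hαβ : α + β = 1)
    (h : ∀ a ∈ A, ∀ b ∈ B, α • a + β • b ∈ C) :
    ENNReal.ofReal α * volume A + ENNReal.ofReal β * volume B ≤ volume C := by
  set M : Matrix (Fin 2) (Fin 2) ℝ := !![u 0, u 1; -u 1, u 0] with hM
  set T : (Fin 2 → ℝ) →ₗ[ℝ] (Fin 2 → ℝ) := Matrix.toLin' M with hT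
  have hdet : LinearMap.det T = u 0 ^ 2 + u 1 ^ 2 := by
    rw [hT, LinearMap.det_toLin', hM, Matrix.det_fin_two]
    simp
    ring
  have hd0 : 0 < u 0 ^ 2 + u 1 ^ 2 := by
    rcases eq_or_ne (u 0) 0 with h0 | h0
    · rcases eq_or_ne (u 1) 0 with h1 | h1
      · exfalso
        apply hu
        funext i
        fin_cases i
        · exact h0
        · exact h1
      · positivity
    · positivity
  have hT0 : ∀ x, T x 0 = x ⬝ᵥ u := by
    intro x
    simp [hT, hM, Matrix.toLin'_apply, dotProduct, Fin.sum_univ_two, Matrix.mulVec]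
    ring
  have hTc : Continuous T := T.continuous_of_finiteDimensional
  have hvol : ∀ S : Set (Fin 2 → ℝ), volume (T '' S) =
      ENNReal.ofReal (u 0 ^ 2 + u 1 ^ 2) * volume S := by
    intro S
    rw [Measure.addHaar_image_linearMap, hdet, abs_of_pos hd0]
  have hTinj : Function.Injective T := by
    have : LinearMap.det T ≠ 0 := by rw [hdet]; exact hd0.ne'
    exact (LinearMap.equivOfDetNeZero T this).injective
  have mTC : MeasurableSet (T '' C) := by
    have e : Topology.IsClosedEmbedding T :=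
      LinearMap.isClosedEmbedding_of_injective (LinearMap.ker_eq_bot.2 hTinj)
    exact (e.isClosedMap C mC).measurableSet
  have key : ENNReal.ofReal α * volume (T '' A) + ENNReal.ofReal β * volume (T '' B) ≤
      volume (T '' C) := by
    have cTA : IsCompact (T '' A) := hA.image hTc
    have cTB : IsCompact (T '' B) := hB.image hTc
    rw [volume_two cTA.measurableSet, volume_two cTB.measurableSet, volume_two mTC]
    have hme : ∀ S : Set (Fin 2 → ℝ), MeasurableSet S →
        Measurable fun a : ℝ => volume {s : ℝ | ![a, s] ∈ S} := by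
      intro S hS
      exact measurable_measure_prodMk_left
        ((MeasurableEquiv.finTwoArrow (α := ℝ)).symm.measurable hS)
    rw [← lintegral_const_mul _ (hme _ cTA.measurableSet),
      ← lintegral_const_mul _ (hme _ cTB.measurableSet),
      ← lintegral_add_left ((hme _ cTA.measurableSet).const_mul _)]
    apply lintegral_mono
    intro τ
    simp only
    have hsec : ∀ S : Set (Fin 2 → ℝ), IsCompact S → IsCompact {s : ℝ | ![τ, s] ∈ S} := by
      intro S hS
      have hc : Continuous fun s : ℝ => ![τ, s] := by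
        refine continuous_pi fun i => ?_
        fin_cases i
        · exact continuous_const
        · exact continuous_id
      refine Metric.isCompact_of_isClosed_isBounded (hS.isClosed.preimage hc) ?_
      obtain ⟨R, hR⟩ := hS.isBounded.exists_norm_le
      rw [isBounded_iff_forall_norm_le]
      refine ⟨R, fun s hs => ?_⟩
      exact le_trans (norm_le_pi_norm (![τ, s]) 1) (hR _ hs)
    have hne : ∀ S : Set (Fin 2 → ℝ), Convex ℝ S → IsCompact S → S.Nonempty →
        (∀ x ∈ S, -x ∈ S) → |τ| ≤ hs S u → {s : ℝ | ![τ, s] ∈ T '' S}.Nonempty := by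
      intro S cS hS nS sS hτ
      obtain ⟨x, hx, hxu⟩ := exists_hs hS nS u
      rcases (hs_nonneg hS nS sS u).eq_or_lt with h0 | h0
      · have hτ0 : τ = 0 := by
          rw [← h0] at hτ
          exact abs_nonpos_iff.1 hτ
        refine ⟨T x 1, x, hx, ?_⟩
        funext i
        fin_cases i
        · simp [hT0, hxu, hτ0, ← h0]
        · simp
      · have hm : (τ / hs S u) • x ∈ S := by
          apply smul_mem_of_symm cS sS hx
          rw [abs_div, abs_of_pos h0]
          exact (div_le_one h0).2 hτ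
        refine ⟨T ((τ / hs S u) • x) 1, _, hm, ?_⟩
        funext i
        fin_cases i
        · simp [hT0, hxu, smul_dotProduct]
          field_simp
        · simp
    have hemp : ∀ S : Set (Fin 2 → ℝ), IsCompact S → S.Nonempty →
        (∀ x ∈ S, -x ∈ S) → hs S u < |τ| → {s : ℝ | ![τ, s] ∈ T '' S} = ∅ := by
      intro S hS nS sS hτ
      rw [eq_empty_iff_forall_notMem]
      rintro s ⟨x, hx, hxs⟩
      have h1 : x ⬝ᵥ u = τ := by
        rw [← hT0, hxs]; rfl
      have h2 := le_hs hS hx u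
      have h3 := le_hs hS (sS x hx) u
      rw [neg_dotProduct] at h3
      have : |τ| ≤ hs S u := by
        rw [abs_le]
        constructor <;> linarith
      linarith
    rcases le_or_gt |τ| (hs A u) with hτ | hτ
    · apply bm_compact (hsec _ cTA) (hsec _ cTB) (hne A cA hA nA sA hτ)
        (hne B cB hB nB sB (huw ▸ hτ)) hα hβ
      rintro a ⟨x, hx, hxa⟩ b ⟨y, hy, hyb⟩
      refine ⟨α • x + β • y, h x hx y hy, ?_⟩
      rw [map_add, map_smul, map_smul, hxa, hyb]
      funext i
      fin_cases i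
      · simp
        rw [← add_mul, hαβ, one_mul]
      · simp
    · rw [hemp A hA nA sA hτ, hemp B hB nB sB (huw ▸ hτ)]
      simp
  rw [hvol, hvol, hvol] at key
  have hD0 : ENNReal.ofReal (u 0 ^ 2 + u 1 ^ 2) ≠ 0 := by simpa using hd0
  have hD1 : ENNReal.ofReal (u 0 ^ 2 + u 1 ^ 2) ≠ ∞ := ENNReal.ofReal_ne_top
  rw [← ENNReal.mul_le_mul_iff_right hD0 hD1]
  refine le_trans (le_of_eq ?_) key
  ring

theorem real_final {l a1 a2 b1 b2 s m k e w : ℝ} (hl0 : 0 < l) (hl1 : l < 1)
    (ha1 : 0 < a1) (ha2 : 0 < a2) (hb1 : 0 < b1) (hb2 : 0 < b2)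
    (h1 : a1 ^ (1 - l) * b1 ^ l = 1) (h2 : a2 ^ (1 - l) * b2 ^ l = 1)
    (hm0 : 0 < m) (hm1 : m = b1 + s * a1) (hm2 : m = b2 + s * a2)
    (hlb : b2 ≤ l * m) (hlt : l * m ≤ b1) (hk : 0 ≤ k) (he : 0 ≤ e)
    (I1 : (e / b1 + s * k / a1) / m ≤ w) (I2 : (e / b2 + s * k / a2) / m ≤ w) :
    k ^ (1 - l) * e ^ l ≤ w := by
  have key : l * (e / (b1 * b2)) + (1 - l) * (k / (a1 * a2)) ≤ w := by
    rcases (le_trans hlb hlt).eq_or_lt with hb | hb
    · -- b1 = b2
      have hlm : l * m = b1 := le_antisymm hlt (hb ▸ hlb)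
      have hs : s * a1 = (1 - l) * m := by linarith
      have hs2 : s * a2 = (1 - l) * m := by linarith
      refine le_trans (le_of_eq ?_) I1
      have e1 : l * (e / (b1 * b2)) = e / b1 / m := by
        rw [hb, ← hlm]; field_simp
      have e2 : (1 - l) * (k / (a1 * a2)) = s * k / a1 / m := by
        have : s = (1 - l) * m / a2 := by field_simp; exact hs2
        rw [this]; field_simp
      rw [e1, e2]; ring
    · set θ := (b1 - l * m) / (b1 - b2) with hθ
      have hbb : 0 < b1 - b2 := by linarith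
      have hθ0 : 0 ≤ θ := div_nonneg (by linarith) hbb.le
      have hθ1 : 0 ≤ 1 - θ := by
        have : 1 - θ = (l * m - b2) / (b1 - b2) := by rw [hθ]; field_simp; ring
        rw [this]; exact div_nonneg (by linarith) hbb.le
      have hc1 : θ * b2 + (1 - θ) * b1 = l * m := by
        rw [hθ]; field_simp; ring
      have hc2 : s * (θ * a2 + (1 - θ) * a1) = (1 - l) * m := by
        have : s * (θ * a2 + (1 - θ) * a1) = θ * (m - b2) + (1 - θ) * (m - b1) := by
          rw [show m - b2 = s * a2 by linarith, show m - b1 = s * a1 by linarith]; ring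
        rw [this]; linarith
      have hcomb : θ * ((e / b1 + s * k / a1) / m) + (1 - θ) * ((e / b2 + s * k / a2) / m) ≤ w := by
        have := add_le_add (mul_le_mul_of_nonneg_left I1 hθ0) (mul_le_mul_of_nonneg_left I2 hθ1)
        linarith
      refine le_trans (le_of_eq ?_) hcomb
      have e1 : l * (e / (b1 * b2)) = θ * (e / b1 / m) + (1 - θ) * (e / b2 / m) := by
        have : l = (θ * b2 + (1 - θ) * b1) / m := by rw [hc1]; field_simp
        rw [this]; field_simp
      have e2 : (1 - l) * (k / (a1 * a2)) = θ * (s * k / a1 / m) + (1 - θ) * (s * k / a2 / m) := by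
        have : 1 - l = s * (θ * a2 + (1 - θ) * a1) / m := by rw [hc2]; field_simp
        rw [this]; field_simp
      rw [e1, e2]; ring
  have amgm := Real.geom_mean_le_arith_mean2_weighted (w₁ := 1 - l) (w₂ := l)
    (p₁ := k / (a1 * a2)) (p₂ := e / (b1 * b2)) (by linarith) hl0.le
    (by positivity) (by positivity) (by ring)
  rw [Real.div_rpow hk (by positivity), Real.div_rpow he (by positivity),
    div_mul_div_comm, Real.mul_rpow ha1.le ha2.le, Real.mul_rpow hb1.le hb2.le,
    show a1 ^ (1 - l) * a2 ^ (1 - l) * (b1 ^ l * b2 ^ l) =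
      (a1 ^ (1 - l) * b1 ^ l) * (a2 ^ (1 - l) * b2 ^ l) by ring, h1, h2] at amgm
  simp only [mul_one, div_one] at amgm
  linarith

theorem exists_chord {l a1 a2 b1 b2 : ℝ} (hl0 : 0 < l) (hl1 : l < 1)
    (ha1 : 0 < a1) (hb1 : 0 < b1) (hb2 : 0 < b2) (ha : a1 ≤ a2)
    (h1 : a1 ^ (1 - l) * b1 ^ l = 1) (h2 : a2 ^ (1 - l) * b2 ^ l = 1) :
    ∃ s m : ℝ, 0 < s ∧ 0 < m ∧ m = b1 + s * a1 ∧ m = b2 + s * a2 ∧ b2 ≤ l * m ∧ l * m ≤ b1 ∧
      ∀ a b : ℝ, a1 ≤ a → a ≤ a2 → 0 < b → a ^ (1 - l) * b ^ l = 1 → b + s * a ≤ m := by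
  have h1l : 0 < 1 - l := by linarith
  have hmono : ∀ a b a' b' : ℝ, 0 < a → 0 < b → 0 < b' → a ≤ a' → a ^ (1 - l) * b ^ l = 1 →
      a' ^ (1 - l) * b' ^ l = 1 → b' ≤ b := by
    intro a b a' b' h0 hb hb' haa e1 e2
    by_contra hlt
    push Not at hlt
    have i1 : a ^ (1 - l) ≤ a' ^ (1 - l) := Real.rpow_le_rpow h0.le haa h1l.le
    have i2 : b ^ l < b' ^ l := Real.rpow_lt_rpow hb.le hlt hl0
    have i3 : a ^ (1 - l) * b ^ l < a' ^ (1 - l) * b' ^ l :=
      mul_lt_mul' i1 i2 (by positivity) (Real.rpow_pos_of_pos (lt_of_lt_of_le h0 haa) _)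
    linarith
  rcases ha.eq_or_lt with hab | hab
  · subst hab
    have hbe : b2 = b1 := le_antisymm (hmono _ _ _ _ ha1 hb1 hb2 le_rfl h1 h2)
      (hmono _ _ _ _ ha1 hb2 hb1 le_rfl h2 h1)
    subst hbe
    refine ⟨(1 - l) / l * (b2 / a1), b2 / l, mul_pos (div_pos h1l hl0) (div_pos hb1 ha1),
      by positivity, by field_simp; ring,
      by field_simp; ring, by field_simp; exact le_rfl, by field_simp; exact le_rfl, ?_⟩
    intro a b haa haa' hb e
    have : a = a1 := le_antisymm haa' haa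
    subst this
    have hbe : b = b2 := le_antisymm (hmono _ _ _ _ ha1 hb1 hb le_rfl h1 e)
      (hmono _ _ _ _ ha1 hb hb1 le_rfl e h1)
    subst hbe
    apply le_of_eq
    field_simp
    ring
  · have ha2 : 0 < a2 := by linarith
    have hbb : b2 ≤ b1 := hmono _ _ _ _ ha1 hb1 hb2 hab.le h1 h2
    have hd : 0 < a2 - a1 := by linarith
    have hbb' : b2 < b1 := by
      rcases hbb.lt_or_eq with h | h
      · exact h
      exfalso
      subst h
      have i1 : a1 ^ (1 - l) < a2 ^ (1 - l) := Real.rpow_lt_rpow ha1.le hab h1l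
      have i3 : a1 ^ (1 - l) * b2 ^ l < a2 ^ (1 - l) * b2 ^ l :=
        mul_lt_mul_of_pos_right i1 (by positivity)
      linarith
    have hs : 0 < (b1 - b2) / (a2 - a1) := div_pos (by linarith) hd
    have hsd : (b1 - b2) / (a2 - a1) * (a2 - a1) = b1 - b2 := by field_simp
    set s := (b1 - b2) / (a2 - a1) with hsdef
    -- AM-GM facts
    have g1 : a1 * b1 ≤ (1 - l) * (a2 * b1) + l * (a1 * b2) := by
      have := Real.geom_mean_le_arith_mean2_weighted (w₁ := 1 - l) (w₂ := l)
        (p₁ := a2 * b1) (p₂ := a1 * b2) h1l.le hl0.le (by positivity) (by positivity) (by ring)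
      rw [Real.mul_rpow ha2.le hb1.le, Real.mul_rpow ha1.le hb2.le,
        show a2 ^ (1 - l) * b1 ^ (1 - l) * (a1 ^ l * b2 ^ l) =
          (a2 ^ (1 - l) * b2 ^ l) * (b1 ^ (1 - l) * a1 ^ l) by ring, h2, one_mul] at this
      have e : a1 * b1 = (a1 ^ (1 - l) * b1 ^ l) * (b1 ^ (1 - l) * a1 ^ l) := by
        rw [show (a1 ^ (1 - l) * b1 ^ l) * (b1 ^ (1 - l) * a1 ^ l) =
          (a1 ^ (1 - l) * a1 ^ l) * (b1 ^ (1 - l) * b1 ^ l) by ring,
          ← Real.rpow_add ha1, ← Real.rpow_add hb1]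
        simp
      rw [h1, one_mul] at e
      linarith
    have g2 : a2 * b2 ≤ l * (b1 * a2) + (1 - l) * (a1 * b2) := by
      have := Real.geom_mean_le_arith_mean2_weighted (w₁ := l) (w₂ := 1 - l)
        (p₁ := b1 * a2) (p₂ := a1 * b2) hl0.le h1l.le (by positivity) (by positivity) (by ring)
      rw [Real.mul_rpow hb1.le ha2.le, Real.mul_rpow ha1.le hb2.le,
        show b1 ^ l * a2 ^ l * (a1 ^ (1 - l) * b2 ^ (1 - l)) =
          (a1 ^ (1 - l) * b1 ^ l) * (b2 ^ (1 - l) * a2 ^ l) by ring, h1, one_mul] at this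
      have e : a2 * b2 = (a2 ^ (1 - l) * b2 ^ l) * (b2 ^ (1 - l) * a2 ^ l) := by
        rw [show (a2 ^ (1 - l) * b2 ^ l) * (b2 ^ (1 - l) * a2 ^ l) =
          (a2 ^ (1 - l) * a2 ^ l) * (b2 ^ (1 - l) * b2 ^ l) by ring,
          ← Real.rpow_add ha2, ← Real.rpow_add hb2]
        simp
      rw [h2, one_mul] at e
      linarith
    refine ⟨s, b1 + s * a1, hs, by positivity, rfl, by linarith, ?_, ?_, ?_⟩
    · -- b2 ≤ l * (b1 + s * a1)
      rw [show b1 + s * a1 = b2 + s * a2 by linarith]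
      have : (1 - l) * b2 * (a2 - a1) ≤ l * s * a2 * (a2 - a1) := by
        rw [show l * s * a2 * (a2 - a1) = l * a2 * (s * (a2 - a1)) by ring, hsd]
        nlinarith
      have := le_of_mul_le_mul_right this hd
      linarith
    · have : l * s * a1 * (a2 - a1) ≤ (1 - l) * b1 * (a2 - a1) := by
        rw [show l * s * a1 * (a2 - a1) = l * a1 * (s * (a2 - a1)) by ring, hsd]
        nlinarith
      have := le_of_mul_le_mul_right this hd
      linarith
    · intro a b haa haa' hb e
      set θ := (a - a1) / (a2 - a1) with hθ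
      have hθ0 : 0 ≤ θ := div_nonneg (by linarith) hd.le
      have hθ1 : 0 ≤ 1 - θ := by
        have : 1 - θ = (a2 - a) / (a2 - a1) := by rw [hθ]; field_simp; ring
        rw [this]; exact div_nonneg (by linarith) hd.le
      have hae : a = (1 - θ) * a1 + θ * a2 := by
        rw [hθ]; field_simp; ring
      have ha0 : 0 < a := by linarith
      set B := (1 - θ) * b1 + θ * b2 with hB
      have hB0 : 0 ≤ B := by positivity
      have hh := holder2 hl0 hl1 (p := (1 - θ) * a1) (q := (1 - θ) * b1) (r := θ * a2)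
        (s := θ * b2) (by positivity) (by positivity) (by positivity) (by positivity)
      rw [← hae, ← hB] at hh
      have f1 : ((1 - θ) * a1) ^ (1 - l) * ((1 - θ) * b1) ^ l = 1 - θ := by
        rw [Real.mul_rpow hθ1 ha1.le, Real.mul_rpow hθ1 hb1.le,
          show (1 - θ) ^ (1 - l) * a1 ^ (1 - l) * ((1 - θ) ^ l * b1 ^ l) =
            ((1 - θ) ^ (1 - l) * (1 - θ) ^ l) * (a1 ^ (1 - l) * b1 ^ l) by ring, h1, mul_one]
        rw [← Real.rpow_add' hθ1 (by simp)]
        simp
      have f2 : (θ * a2) ^ (1 - l) * (θ * b2) ^ l = θ := by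
        rw [Real.mul_rpow hθ0 ha2.le, Real.mul_rpow hθ0 hb2.le,
          show θ ^ (1 - l) * a2 ^ (1 - l) * (θ ^ l * b2 ^ l) =
            (θ ^ (1 - l) * θ ^ l) * (a2 ^ (1 - l) * b2 ^ l) by ring, h2, mul_one]
        rw [← Real.rpow_add' hθ0 (by simp)]
        simp
      rw [f1, f2] at hh
      have hh' : a ^ (1 - l) * b ^ l ≤ a ^ (1 - l) * B ^ l := by rw [e]; linarith
      have hbB : b ≤ B := by
        have := le_of_mul_le_mul_left hh' (by positivity)
        exact (Real.rpow_le_rpow_iff hb.le hB0 hl0).1 this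
      calc b + s * a ≤ B + s * a := by linarith
        _ = (1 - θ) * (b1 + s * a1) + θ * (b2 + s * a2) := by rw [hB, hae]; ring
        _ = b1 + s * a1 := by
          rw [show b2 + s * a2 = b1 + s * a1 by linarith]; ring

end Vale.Agent.P227.T1
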