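import Vale.Agent.P227.T1.Planar

open MeasureTheory Set
open scoped ENNReal NNReal Pointwise Matrix

namespace Vale.Agent.P227.T1

theorem hs_smul_set {n : ℕ} {K : Set (Fin n → ℝ)} (hK : IsCompact K) (nK : K.Nonempty) {c : ℝ}
    (hc : 0 ≤ c) (u : Fin n → ℝ) : hs (c • K) u = c * hs K u := by
  apply le_antisymm
  · apply hs_le (nK.smul_set)
    rintro _ ⟨x, hx, rfl⟩
    simp only [smul_dotProduct, smul_eq_mul]
    exact mul_le_mul_of_nonneg_left (le_hs hK hx u) hc
  · obtain ⟨x, hx, h⟩ := exists_hs hK nK u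
    rw [← h, ← smul_eq_mul, ← smul_dotProduct]
    exact le_hs (hK.smul c) (smul_mem_smul_set hx) u

theorem logFn_props {n : ℕ} {K L : Set (Fin n → ℝ)} (hK : IsCompact K) (hL : IsCompact L)
    (sK : ∀ x ∈ K, -x ∈ K) (sL : ∀ x ∈ L, -x ∈ L) (vK : volume K ≠ 0) (vL : volume L ≠ 0)
    {l : ℝ} (hl0 : 0 < l) (hl1 : l < 1) :
    Continuous (fun u => hs K u ^ (1 - l) * hs L u ^ l) ∧
    (∀ u, u ≠ 0 → 0 < hs K u ^ (1 - l) * hs L u ^ l) ∧
    (hs K (0 : Fin n → ℝ) ^ (1 - l) * hs L (0 : Fin n → ℝ) ^ l = 0) ∧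
    (∀ c : ℝ, 0 ≤ c → ∀ u, hs K (c • u) ^ (1 - l) * hs L (c • u) ^ l =
      c * (hs K u ^ (1 - l) * hs L u ^ l)) := by
  have nK : K.Nonempty := by
    rw [nonempty_iff_ne_empty]
    rintro rfl
    simp at vK
  have nL : L.Nonempty := by
    rw [nonempty_iff_ne_empty]
    rintro rfl
    simp at vL
  have h1l : 0 < 1 - l := by linarith
  refine ⟨?_, ?_, ?_, ?_⟩
  · exact ((hs_continuous hK).rpow_const fun u => Or.inr h1l.le).mul
      ((hs_continuous hL).rpow_const fun u => Or.inr hl0.le)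
  · intro u hu
    have := hs_pos hK sK vK hu
    have := hs_pos hL sL vL hu
    positivity
  · rw [hs_zero hK nK, Real.zero_rpow h1l.ne', zero_mul]
  · intro c hc u
    rw [hs_smul hK nK hc, hs_smul hL nL hc, Real.mul_rpow hc (hs_nonneg hK nK sK u),
      Real.mul_rpow hc (hs_nonneg hL nL sL u)]
    have : c ^ (1 - l) * c ^ l = c := by
      rw [← Real.rpow_add' hc (by simp)]
      simp
    calc c ^ (1 - l) * hs K u ^ (1 - l) * (c ^ l * hs L u ^ l)
        = (c ^ (1 - l) * c ^ l) * (hs K u ^ (1 - l) * hs L u ^ l) := by ring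
      _ = _ := by rw [this]

/-- Planar logarithmic Brunn-Minkowski inequality in coordinates, bodies of positive area. -/
theorem planar_pos {K L : Set (Fin 2 → ℝ)} (cK : Convex ℝ K) (cL : Convex ℝ L)
    (hK : IsCompact K) (hL : IsCompact L) (sK : ∀ x ∈ K, -x ∈ K) (sL : ∀ x ∈ L, -x ∈ L)
    (vK : volume K ≠ 0) (vL : volume L ≠ 0) {l : ℝ} (hl0 : 0 < l) (hl1 : l < 1) :
    (volume K).toReal ^ (1 - l) * (volume L).toReal ^ l ≤
      (volume (wf fun u => hs K u ^ (1 - l) * hs L u ^ l)).toReal := by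
  have nK : K.Nonempty := by
    rw [nonempty_iff_ne_empty]
    rintro rfl
    simp at vK
  have nL : L.Nonempty := by
    rw [nonempty_iff_ne_empty]
    rintro rfl
    simp at vL
  have h1l : 0 < 1 - l := by linarith
  obtain ⟨fc, fp, f0, fh⟩ := logFn_props hK hL sK sL vK vL hl0 hl1
  set f : (Fin 2 → ℝ) → ℝ := fun u => hs K u ^ (1 - l) * hs L u ^ l with hf
  set W := wf f with hW
  have hWc : IsCompact W := wf_isCompact f
  set J : Set (Fin 2 → ℝ) := {v | ‖v‖ = 1 ∧ hs W v = f v} with hJ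
  have hJc : IsCompact J := by
    have h1 : IsClosed {v : Fin 2 → ℝ | hs W v = f v} :=
      isClosed_eq (hs_continuous hWc) fc
    have h2 : J = Metric.sphere (0 : Fin 2 → ℝ) 1 ∩ {v : Fin 2 → ℝ | hs W v = f v} := by
      ext v
      simp [hJ]
    rw [h2]
    exact (isCompact_sphere _ _).inter_right h1
  have hJn : J.Nonempty := by
    obtain ⟨x, hx⟩ : ∃ x, x ∉ W := by
      by_contra h
      push Not at h
      exact hWc.ne_univ (eq_univ_of_forall h)
    obtain ⟨v, h1, h2, -⟩ := exists_touch fc fp f0 fh hx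
    exact ⟨v, h1, h2⟩
  have hJ0 : ∀ v ∈ J, v ≠ 0 := by
    rintro v hv rfl
    simp [hJ] at hv
  have hac : ContinuousOn (fun v => hs K v / f v) J :=
    (hs_continuous hK).continuousOn.div fc.continuousOn fun v hv => (fp v (hJ0 v hv)).ne'
  obtain ⟨u1, hu1, hmin⟩ := hJc.exists_isMinOn hJn hac
  obtain ⟨u2, hu2, hmax⟩ := hJc.exists_isMaxOn hJn hac
  have hpos : ∀ v ∈ J, 0 < hs K v ∧ 0 < hs L v ∧ 0 < f v := fun v hv =>
    ⟨hs_pos hK sK vK (hJ0 v hv), hs_pos hL sL vL (hJ0 v hv), fp v (hJ0 v hv)⟩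
  have hab : ∀ v ∈ J, (hs K v / f v) ^ (1 - l) * (hs L v / f v) ^ l = 1 := by
    intro v hv
    obtain ⟨p1, p2, p3⟩ := hpos v hv
    rw [Real.div_rpow p1.le p3.le, Real.div_rpow p2.le p3.le, div_mul_div_comm,
      ← Real.rpow_add p3]
    simp only [sub_add_cancel, Real.rpow_one]
    exact div_self p3.ne'
  have hap : ∀ v ∈ J, 0 < hs K v / f v := fun v hv => by
    obtain ⟨p1, p2, p3⟩ := hpos v hv
    positivity
  have hbp : ∀ v ∈ J, 0 < hs L v / f v := fun v hv => by
    obtain ⟨p1, p2, p3⟩ := hpos v hv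
    positivity
  obtain ⟨s, m, hs0, hm0, hm1, hm2, hlb, hlt, hch⟩ := exists_chord hl0 hl1 (hap u1 hu1)
    (hbp u1 hu1) (hbp u2 hu2) (hmin hu2) (hab u1 hu1) (hab u2 hu2)
  have hincl : ∀ x ∈ L, ∀ y ∈ K, m⁻¹ • (x + s • y) ∈ W := by
    intro x hx y hy
    by_contra hno
    obtain ⟨v, hv1, hv2, hv3⟩ := exists_touch fc fp f0 fh hno
    have hvJ : v ∈ J := ⟨hv1, hv2⟩
    obtain ⟨p1, p2, p3⟩ := hpos v hvJ
    have hc := hch _ _ (hmin hvJ) (hmax hvJ) (hbp v hvJ) (hab v hvJ)
    rw [smul_dotProduct, add_dotProduct, smul_dotProduct, smul_eq_mul, smul_eq_mul] at hv3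
    have e1 := le_hs hL hx v
    have e2 := mul_le_mul_of_nonneg_left (le_hs hK hy v) hs0.le
    have e3 : x ⬝ᵥ v + s * (y ⬝ᵥ v) ≤ m * f v := by
      have : hs L v + s * hs K v ≤ m * f v := by
        have h5 := mul_le_mul_of_nonneg_right hc p3.le
        have h6 : (hs L v / f v + s * (hs K v / f v)) * f v = hs L v + s * hs K v := by
          field_simp
        linarith
      linarith
    have e4 : m⁻¹ * (x ⬝ᵥ v + s * (y ⬝ᵥ v)) ≤ f v := by
      rw [inv_mul_le_iff₀ hm0]; exact e3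
    linarith
  have hvolc : ∀ (c : ℝ), 0 < c → ∀ S : Set (Fin 2 → ℝ),
      volume (c⁻¹ • S) = ENNReal.ofReal (c⁻¹ ^ 2) * volume S := by
    intro c hc S
    rw [Measure.addHaar_smul]
    congr 2
    rw [abs_of_pos (by positivity)]
    simp
  have hI : ∀ v ∈ J, m = hs L v / f v + s * (hs K v / f v) →
      ((volume L).toReal / (hs L v / f v) + s * (volume K).toReal / (hs K v / f v)) / m ≤
        (volume W).toReal := by
    intro v hv hmv
    obtain ⟨p1, p2, p3⟩ := hpos v hv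
    set a := hs K v / f v with ha
    set b := hs L v / f v with hb
    have ha0 : 0 < a := hap v hv
    have hb0 : 0 < b := hbp v hv
    have key := linBM (A := b⁻¹ • L) (B := a⁻¹ • K) (C := W) (cL.smul _) (cK.smul _)
      (hL.smul _) (hK.smul _)
      (by rintro _ ⟨x, hx, rfl⟩; exact ⟨-x, sL x hx, by simp⟩)
      (by rintro _ ⟨x, hx, rfl⟩; exact ⟨-x, sK x hx, by simp⟩)
      nL.smul_set nK.smul_set hWc.isClosed (hJ0 v hv)
      (by
        rw [hs_smul_set hL nL (by positivity), hs_smul_set hK nK (by positivity), ha, hb]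
        field_simp)
      (α := b / m) (β := s * a / m) (by positivity) (by positivity)
      (by rw [← add_div, ← hmv, div_self hm0.ne'])
      (by
        rintro _ ⟨x, hx, rfl⟩ _ ⟨y, hy, rfl⟩
        have := hincl x hx y hy
        convert this using 1
        simp only [smul_smul, smul_add]
        congr 2
        · field_simp
        · field_simp)
    rw [hvolc b hb0, hvolc a ha0] at key
    have hfin : volume W ≠ ∞ := hWc.measure_lt_top.ne
    have key2 := ENNReal.toReal_mono hfin key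
    have hLf : volume L ≠ ∞ := hL.measure_lt_top.ne
    have hKf : volume K ≠ ∞ := hK.measure_lt_top.ne
    rw [ENNReal.toReal_add (by finiteness) (by finiteness)] at key2
    simp only [ENNReal.toReal_mul] at key2
    rw [ENNReal.toReal_ofReal (by positivity), ENNReal.toReal_ofReal (by positivity),
      ENNReal.toReal_ofReal (by positivity), ENNReal.toReal_ofReal (by positivity)] at key2
    refine le_trans (le_of_eq ?_) key2
    field_simp
  exact real_final hl0 hl1 (hap u1 hu1) (hap u2 hu2) (hbp u1 hu1) (hbp u2 hu2) (hab u1 hu1)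
    (hab u2 hu2) hm0 hm1 hm2 hlb hlt ENNReal.toReal_nonneg ENNReal.toReal_nonneg
    (hI u1 hu1 hm1) (hI u2 hu2 hm2)

end Vale.Agent.P227.T1
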