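import Mathlib

open MeasureTheory Set
open scoped ENNReal NNReal Pointwise Matrix

namespace Vale.Agent.P227.T1

/-- Support function in coordinates. -/
noncomputable def hs {n : ℕ} (K : Set (Fin n → ℝ)) (u : Fin n → ℝ) : ℝ :=
  sSup ((fun x => x ⬝ᵥ u) '' K)

/-- Wulff shape in coordinates. -/
def wf {n : ℕ} (f : (Fin n → ℝ) → ℝ) : Set (Fin n → ℝ) := {x | ∀ u, x ⬝ᵥ u ≤ f u}

theorem continuous_dot {n : ℕ} : Continuous fun p : (Fin n → ℝ) × (Fin n → ℝ) => p.2 ⬝ᵥ p.1 := by
  simp only [dotProduct]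
  fun_prop

variable {n : ℕ} {K L : Set (Fin n → ℝ)}

theorem hs_bdd (hK : IsCompact K) (u : Fin n → ℝ) : BddAbove ((fun x => x ⬝ᵥ u) '' K) := by
  apply (hK.image _).bddAbove
  simp only [dotProduct]
  fun_prop

theorem le_hs (hK : IsCompact K) {x : Fin n → ℝ} (hx : x ∈ K) (u : Fin n → ℝ) :
    x ⬝ᵥ u ≤ hs K u := le_csSup (hs_bdd hK u) ⟨x, hx, rfl⟩

theorem exists_hs (hK : IsCompact K) (nK : K.Nonempty) (u : Fin n → ℝ) :
    ∃ x ∈ K, x ⬝ᵥ u = hs K u := by
  have hc : ContinuousOn (fun x : Fin n → ℝ => x ⬝ᵥ u) K := by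
    simp only [dotProduct]
    fun_prop
  obtain ⟨x, hx, h⟩ := hK.exists_sSup_image_eq nK hc
  exact ⟨x, hx, h.symm⟩

theorem hs_le (nK : K.Nonempty) {u : Fin n → ℝ} {c : ℝ} (h : ∀ x ∈ K, x ⬝ᵥ u ≤ c) :
    hs K u ≤ c := by
  apply csSup_le (nK.image _)
  rintro _ ⟨x, hx, rfl⟩
  exact h x hx

theorem hs_continuous (hK : IsCompact K) : Continuous (hs K) :=
  hK.continuous_sSup (f := fun (u x : Fin n → ℝ) => x ⬝ᵥ u) continuous_dot

theorem hs_nonneg (hK : IsCompact K) (nK : K.Nonempty) (sK : ∀ x ∈ K, -x ∈ K)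
    (u : Fin n → ℝ) : 0 ≤ hs K u := by
  obtain ⟨x, hx⟩ := nK
  have h1 := le_hs hK hx u
  have h2 := le_hs hK (sK x hx) u
  rw [neg_dotProduct] at h2
  linarith

theorem hs_smul (hK : IsCompact K) (nK : K.Nonempty) {c : ℝ} (hc : 0 ≤ c) (u : Fin n → ℝ) :
    hs K (c • u) = c * hs K u := by
  apply le_antisymm
  · apply hs_le nK
    intro x hx
    rw [dotProduct_smul, smul_eq_mul]
    exact mul_le_mul_of_nonneg_left (le_hs hK hx u) hc
  · obtain ⟨x, hx, h⟩ := exists_hs hK nK u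
    rw [← h, ← smul_eq_mul, ← dotProduct_smul]
    exact le_hs hK hx _

theorem hs_neg (hK : IsCompact K) (nK : K.Nonempty) (sK : ∀ x ∈ K, -x ∈ K) (u : Fin n → ℝ) :
    hs K (-u) = hs K u := by
  apply le_antisymm
  · apply hs_le nK
    intro x hx
    rw [dotProduct_neg, ← neg_dotProduct]
    exact le_hs hK (sK x hx) u
  · apply hs_le nK
    intro x hx
    have := le_hs hK (sK x hx) (-u)
    rwa [dotProduct_neg, neg_dotProduct, neg_neg] at this

theorem hs_zero (hK : IsCompact K) (nK : K.Nonempty) : hs K 0 = 0 := by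
  have := hs_smul hK nK (le_refl (0 : ℝ)) 0
  simpa using this

/-- A set of positive volume has positive support function (symmetric compact). -/
theorem hs_pos (hK : IsCompact K) (sK : ∀ x ∈ K, -x ∈ K) (vK : volume K ≠ 0)
    {u : Fin n → ℝ} (hu : u ≠ 0) : 0 < hs K u := by
  have nK : K.Nonempty := by
    rw [nonempty_iff_ne_empty]
    rintro rfl
    simp at vK
  rcases (hs_nonneg hK nK sK u).lt_or_eq with h | h
  · exact h
  exfalso
  apply vK
  let F : (Fin n → ℝ) →ₗ[ℝ] ℝ :=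
    { toFun := fun x => x ⬝ᵥ u
      map_add' := fun x y => add_dotProduct x y u
      map_smul' := fun c x => smul_dotProduct c x u }
  have hF : LinearMap.ker F ≠ ⊤ := by
    intro hk
    have : u ∈ LinearMap.ker F := by rw [hk]; trivial
    rw [LinearMap.mem_ker] at this
    exact hu (dotProduct_self_eq_zero.1 this)
  refine measure_mono_null ?_ (Measure.addHaar_submodule volume (LinearMap.ker F) hF)
  intro x hx
  have h1 := le_hs hK hx u
  have h2 := le_hs hK (sK x hx) u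
  rw [neg_dotProduct] at h2
  show F x = 0
  show x ⬝ᵥ u = 0
  linarith

theorem wf_isClosed (f : (Fin n → ℝ) → ℝ) : IsClosed (wf f) := by
  have : wf f = ⋂ u, {x | x ⬝ᵥ u ≤ f u} := by
    ext x; simp [wf]
  rw [this]
  apply isClosed_iInter
  intro u
  apply isClosed_le _ continuous_const
  simp only [dotProduct]
  fun_prop

theorem wf_convex (f : (Fin n → ℝ) → ℝ) : Convex ℝ (wf f) := by
  intro x hx y hy a b ha hb hab u
  rw [add_dotProduct, smul_dotProduct, smul_dotProduct]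
  have h1 := mul_le_mul_of_nonneg_left (hx u) ha
  have h2 := mul_le_mul_of_nonneg_left (hy u) hb
  have : a * f u + b * f u = f u := by rw [← add_mul, hab, one_mul]
  simp only [smul_eq_mul]
  linarith

theorem wf_isCompact (f : (Fin n → ℝ) → ℝ) : IsCompact (wf f) := by
  refine Metric.isCompact_of_isClosed_isBounded (wf_isClosed f) ?_
  rw [Metric.isBounded_iff_subset_closedBall 0]
  refine ⟨∑ i, (|f (Pi.single i 1)| + |f (-Pi.single i 1)|), ?_⟩
  intro x hx
  rw [mem_closedBall_zero_iff, pi_norm_le_iff_of_nonneg (by positivity)]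
  intro i
  have h1 := hx (Pi.single i 1)
  have h2 := hx (-Pi.single i 1)
  rw [dotProduct_neg] at h2
  simp only [dotProduct_single, mul_one] at h1 h2
  have h3 : |f (Pi.single i 1)| + |f (-Pi.single i 1)| ≤
      ∑ i, (|f (Pi.single i 1)| + |f (-Pi.single i 1)|) :=
    Finset.single_le_sum (f := fun i => |f (Pi.single i 1)| + |f (-Pi.single i 1)|)
      (fun i _ => by positivity) (Finset.mem_univ i)
  rw [Real.norm_eq_abs, abs_le]
  have h4 := le_abs_self (f (Pi.single i 1))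
  have h5 := le_abs_self (f (-Pi.single i 1))
  have h6 := abs_nonneg (f (Pi.single i 1))
  have h7 := abs_nonneg (f (-Pi.single i 1))
  constructor <;> linarith

/-- Touching directions suffice to define the Wulff shape. -/
theorem exists_touch {f : (Fin n → ℝ) → ℝ} (fc : Continuous f) (fp : ∀ u, u ≠ 0 → 0 < f u)
    (f0 : f 0 = 0) (fh : ∀ c : ℝ, 0 ≤ c → ∀ u, f (c • u) = c * f u) {x : Fin n → ℝ}
    (hx : x ∉ wf f) : ∃ v : Fin n → ℝ, ‖v‖ = 1 ∧ hs (wf f) v = f v ∧ f v < x ⬝ᵥ v := by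
  have hx' : ∃ u, f u < x ⬝ᵥ u := by
    by_contra h
    push Not at h
    exact hx h
  obtain ⟨u, hu⟩ := hx'
  have hu0 : u ≠ 0 := by
    rintro rfl
    rw [f0, dotProduct_zero] at hu
    exact lt_irrefl _ hu
  have hnu : 0 < ‖u‖ := norm_pos_iff.2 hu0
  set S := Metric.sphere (0 : Fin n → ℝ) 1 with hS
  have hSc : IsCompact S := isCompact_sphere _ _
  have hu1 : ‖u‖⁻¹ • u ∈ S := by
    rw [hS, mem_sphere_zero_iff_norm, norm_smul, norm_inv, norm_norm, inv_mul_cancel₀ hnu.ne']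
  have hcd : Continuous fun v : Fin n → ℝ => x ⬝ᵥ v := by
    simp only [dotProduct]
    fun_prop
  have hcont : ContinuousOn (fun v : Fin n → ℝ => x ⬝ᵥ v / f v) S := by
    apply ContinuousOn.div hcd.continuousOn
    · exact fc.continuousOn
    · intro v hv
      have : v ≠ 0 := by
        rintro rfl
        simp [hS] at hv
      exact (fp v this).ne'
  obtain ⟨v, hv, hmax⟩ := hSc.exists_isMaxOn ⟨_, hu1⟩ hcont
  have hv1 : ‖v‖ = 1 := by simpa [hS] using hv
  have hv0 : v ≠ 0 := by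
    rintro rfl
    simp at hv1
  have hfv := fp v hv0
  set ρ := x ⬝ᵥ v / f v with hρ
  have hall : ∀ w, w ≠ 0 → x ⬝ᵥ w ≤ ρ * f w := by
    intro w hw
    have hnw : 0 < ‖w‖ := norm_pos_iff.2 hw
    have hw1 : ‖w‖⁻¹ • w ∈ S := by
      rw [hS, mem_sphere_zero_iff_norm, norm_smul, norm_inv, norm_norm, inv_mul_cancel₀ hnw.ne']
    have h := hmax hw1
    simp only [mem_ofPred_eq] at h
    rw [dotProduct_smul, fh _ (by positivity), smul_eq_mul,
      mul_div_mul_left _ _ (by positivity)] at h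
    rwa [div_le_iff₀ (fp w hw)] at h
  have hρ1 : 1 < ρ := by
    have h1 := hall u hu0
    have h2 := fp u hu0
    by_contra h
    push Not at h
    have := mul_le_mul_of_nonneg_right h h2.le
    linarith
  have hρ0 : 0 < ρ := by linarith
  have hy : ρ⁻¹ • x ∈ wf f := by
    intro w
    by_cases hw : w = 0
    · subst hw
      simp [f0]
    · rw [smul_dotProduct, smul_eq_mul, inv_mul_le_iff₀ hρ0]
      exact hall w hw
  have hxv : x ⬝ᵥ v = ρ * f v := by
    rw [hρ]; field_simp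
  refine ⟨v, hv1, ?_, ?_⟩
  · apply le_antisymm
    · exact hs_le ⟨_, hy⟩ fun y hy => hy v
    · have := le_hs (wf_isCompact f) hy v
      rw [smul_dotProduct, hxv, smul_eq_mul, ← mul_assoc, inv_mul_cancel₀ hρ0.ne', one_mul] at this
      exact this
  · rw [hxv]
    nlinarith

/-- Two-term Hoelder inequality. -/
theorem holder2 {l : ℝ} (hl0 : 0 < l) (hl1 : l < 1) {p q r s : ℝ} (hp : 0 ≤ p) (hq : 0 ≤ q)
    (hr : 0 ≤ r) (hs : 0 ≤ s) :
    p ^ (1 - l) * q ^ l + r ^ (1 - l) * s ^ l ≤ (p + r) ^ (1 - l) * (q + s) ^ l := by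
  have h1l : 0 < 1 - l := by linarith
  rcases (add_nonneg hp hr).eq_or_lt with h | h
  · have hp0 : p = 0 := by linarith
    have hr0 : r = 0 := by linarith
    subst hp0 hr0
    simp [Real.zero_rpow h1l.ne']
  rcases (add_nonneg hq hs).eq_or_lt with h' | h'
  · have hq0 : q = 0 := by linarith
    have hs0 : s = 0 := by linarith
    subst hq0 hs0
    simp [Real.zero_rpow hl0.ne']
  have e1 := Real.geom_mean_le_arith_mean2_weighted h1l.le hl0.le
    (div_nonneg hp h.le) (div_nonneg hq h'.le) (by ring)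
  have e2 := Real.geom_mean_le_arith_mean2_weighted h1l.le hl0.le
    (div_nonneg hr h.le) (div_nonneg hs h'.le) (by ring)
  rw [Real.div_rpow hp h.le, Real.div_rpow hq h'.le, div_mul_div_comm] at e1
  rw [Real.div_rpow hr h.le, Real.div_rpow hs h'.le, div_mul_div_comm] at e2
  have hD : 0 < (p + r) ^ (1 - l) * (q + s) ^ l := by positivity
  have e3 : (p ^ (1 - l) * q ^ l + r ^ (1 - l) * s ^ l) / ((p + r) ^ (1 - l) * (q + s) ^ l) ≤ 1 := by
    rw [add_div]
    calc _ ≤ (1 - l) * (p / (p + r)) + l * (q / (q + s)) +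
          ((1 - l) * (r / (p + r)) + l * (s / (q + s))) := add_le_add e1 e2
      _ = (1 - l) * ((p + r) / (p + r)) + l * ((q + s) / (q + s)) := by ring
      _ = 1 := by rw [div_self h.ne', div_self h'.ne']; ring
  rwa [div_le_one hD] at e3

end Vale.Agent.P227.T1
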